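import Mathlib
import Crest.Prelude.Def_ModularData

-- ▼ part R084/Calc
section

/-! R084: basic facts on the bounded functional calculus `LineCalculus`. -/

set_option autoImplicit false
set_option linter.unusedSectionVars false

namespace Crest.Agent.R084

open Filter MeasureTheory Crest.OpAlg
open scoped Topology InnerProductSpace

variable {H : Type*} [NormedAddCommGroup H] [InnerProductSpace ℂ H] [CompleteSpace H]

theorem character_apply (t u : ℝ) :
    LineCalculus.character t u = Complex.exp (Complex.I * ((t * u : ℝ) : ℂ)) := rfl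

theorem character_zero : LineCalculus.character 0 = 1 := by
  ext u; simp [character_apply]

theorem character_add (s t : ℝ) : LineCalculus.character (s + t) =
    LineCalculus.character s * LineCalculus.character t := by
  ext u
  simp only [character_apply, BoundedContinuousFunction.coe_mul, Pi.mul_apply, ← Complex.exp_add]
  congr 1
  push_cast
  ring

theorem star_character (t : ℝ) : star (LineCalculus.character t) =
    LineCalculus.character (-t) := by
  ext u
  simp only [BoundedContinuousFunction.star_apply, character_apply, RCLike.star_def,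
    ← Complex.exp_conj, map_mul, Complex.conj_I, Complex.conj_ofReal]
  congr 1
  push_cast
  ring

theorem norm_character_apply (t u : ℝ) : ‖LineCalculus.character t u‖ = 1 := by
  rw [character_apply, Complex.norm_exp]; simp

theorem apply_norm_le (D : LineCalculus H) (f : BoundedContinuousFunction ℝ ℂ) :
    ‖D.apply f‖ ≤ ‖f‖ := NonUnitalStarAlgHom.norm_apply_le D.apply f

theorem apply_norm_le' (D : LineCalculus H) (f : BoundedContinuousFunction ℝ ℂ) (x : H) :
    ‖D.apply f x‖ ≤ ‖f‖ * ‖x‖ :=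
  (D.apply f).le_of_opNorm_le (apply_norm_le D f) x

theorem apply_mul (D : LineCalculus H) (f g : BoundedContinuousFunction ℝ ℂ) (x : H) :
    D.apply (f * g) x = D.apply f (D.apply g x) := by
  rw [map_mul]; rfl

theorem apply_comm (D : LineCalculus H) (f g : BoundedContinuousFunction ℝ ℂ) (x : H) :
    D.apply f (D.apply g x) = D.apply g (D.apply f x) := by
  rw [← apply_mul, ← apply_mul, mul_comm]

theorem wave_zero (D : LineCalculus H) : D.wave 0 = 1 := by
  rw [LineCalculus.wave, character_zero, map_one]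

theorem wave_add (D : LineCalculus H) (s t : ℝ) : D.wave (s + t) = D.wave s * D.wave t := by
  rw [LineCalculus.wave, character_add, map_mul]; rfl

theorem star_wave (D : LineCalculus H) (t : ℝ) : star (D.wave t) = D.wave (-t) := by
  rw [LineCalculus.wave, ← map_star, star_character]; rfl

theorem wave_neg_mul (D : LineCalculus H) (t : ℝ) : D.wave (-t) * D.wave t = 1 := by
  rw [← wave_add, neg_add_cancel, wave_zero]

theorem wave_mul_neg (D : LineCalculus H) (t : ℝ) : D.wave t * D.wave (-t) = 1 := by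
  rw [← wave_add, add_neg_cancel, wave_zero]

theorem wave_neg_apply (D : LineCalculus H) (t : ℝ) (x : H) : D.wave (-t) (D.wave t x) = x := by
  have := congrArg (fun A : H →L[ℂ] H => A x) (wave_neg_mul D t)
  simpa using this

theorem wave_apply_neg (D : LineCalculus H) (t : ℝ) (x : H) : D.wave t (D.wave (-t) x) = x := by
  have := congrArg (fun A : H →L[ℂ] H => A x) (wave_mul_neg D t)
  simpa using this

theorem inner_wave_wave (D : LineCalculus H) (t : ℝ) (x y : H) :
    ⟪D.wave t x, D.wave t y⟫_ℂ = ⟪x, y⟫_ℂ := by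
  have h1 : ⟪D.wave t x, D.wave t y⟫_ℂ = ⟪x, (star (D.wave t)) (D.wave t y)⟫_ℂ := by
    rw [ContinuousLinearMap.star_eq_adjoint, ContinuousLinearMap.adjoint_inner_right]
  rw [h1, star_wave, wave_neg_apply]

theorem norm_wave (D : LineCalculus H) (t : ℝ) (x : H) : ‖D.wave t x‖ = ‖x‖ := by
  have h := inner_wave_wave D t x x
  rw [inner_self_eq_norm_sq_to_K, inner_self_eq_norm_sq_to_K] at h
  have h2 : ‖D.wave t x‖ ^ 2 = ‖x‖ ^ 2 := by exact_mod_cast h
  exact (sq_eq_sq₀ (norm_nonneg _) (norm_nonneg _)).1 h2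

/-- The cut-off by a compactly supported function makes `t ↦ e^{itD}` norm Lipschitz. -/
theorem norm_character_mul_sub_le (f : BoundedContinuousFunction ℝ ℂ)
    (hf : HasCompactSupport (f : ℝ → ℂ)) :
    ∃ R : ℝ, 0 ≤ R ∧ ∀ s t : ℝ,
      ‖LineCalculus.character t * f - LineCalculus.character s * f‖ ≤ R * |t - s| := by
  obtain ⟨R, hR⟩ := hf.isCompact.isBounded.exists_norm_le
  have hR0 : 0 ≤ max R 0 := le_max_right _ _
  refine ⟨max R 0 * ‖f‖, by positivity, fun s t => ?_⟩
  refine (BoundedContinuousFunction.norm_le (by positivity)).2 fun u => ?_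
  simp only [BoundedContinuousFunction.coe_sub, BoundedContinuousFunction.coe_mul, Pi.sub_apply,
    Pi.mul_apply, ← sub_mul, norm_mul]
  by_cases hu : f u = 0
  · rw [hu]; simp; positivity
  have hu' : ‖u‖ ≤ max R 0 := le_max_of_le_left (hR u (subset_closure hu))
  have h1 : ‖LineCalculus.character t u - LineCalculus.character s u‖ ≤ |t - s| * ‖u‖ := by
    have : LineCalculus.character t u - LineCalculus.character s u =
        LineCalculus.character s u *
          (Complex.exp (Complex.I * (((t - s) * u : ℝ) : ℂ)) - 1) := by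
      have h := congrArg (fun F : BoundedContinuousFunction ℝ ℂ => F u)
        (character_add s (t - s))
      simp only [add_sub_cancel, BoundedContinuousFunction.coe_mul, Pi.mul_apply] at h
      rw [h, character_apply (t - s)]
      ring
    rw [this, norm_mul, norm_character_apply, one_mul]
    refine (Real.norm_exp_I_mul_ofReal_sub_one_le).trans ?_
    rw [norm_mul, Real.norm_eq_abs (t - s)]
  calc _ ≤ (|t - s| * ‖u‖) * ‖f‖ :=
        mul_le_mul h1 (f.norm_coe_le_norm u) (norm_nonneg _) (by positivity)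
    _ ≤ (|t - s| * max R 0) * ‖f‖ := by gcongr
    _ = _ := by ring

theorem continuous_character_mul (f : BoundedContinuousFunction ℝ ℂ)
    (hf : HasCompactSupport (f : ℝ → ℂ)) :
    Continuous fun t : ℝ => LineCalculus.character t * f := by
  obtain ⟨R, hR0, hR⟩ := norm_character_mul_sub_le f hf
  refine (LipschitzWith.of_dist_le_mul (K := ⟨R, hR0⟩) fun x y => ?_).continuous
  rw [dist_eq_norm, Real.dist_eq]
  exact hR y x

/-- The calculus as a continuous linear map. -/
noncomputable def applyL (D : LineCalculus H) :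
    BoundedContinuousFunction ℝ ℂ →L[ℂ] (H →L[ℂ] H) :=
  LinearMap.mkContinuous
    { toFun := fun f => D.apply f
      map_add' := fun f g => map_add D.apply f g
      map_smul' := fun c f => map_smul D.apply c f } 1
    (fun f => by simpa using apply_norm_le D f)

theorem applyL_apply (D : LineCalculus H) (f : BoundedContinuousFunction ℝ ℂ) :
    applyL D f = D.apply f := rfl

theorem continuous_wave_apply (D : LineCalculus H) (x : H) :
    Continuous fun t => D.wave t x := by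
  rw [continuous_iff_continuousAt]
  intro t₀
  rw [Metric.continuousAt_iff]
  intro ε hε
  obtain ⟨f, hf, hfx⟩ := D.window x (ε / 3) (by positivity)
  have hc : Continuous fun t : ℝ => D.apply (LineCalculus.character t * f) x := by
    have h1 : Continuous fun t : ℝ => applyL D (LineCalculus.character t * f) :=
      (applyL D).continuous.comp (continuous_character_mul f hf)
    exact h1.clm_apply continuous_const
  obtain ⟨d, hd, hd'⟩ := Metric.continuousAt_iff.1 hc.continuousAt (ε / 3) (by positivity)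
  refine ⟨d, hd, fun {t} ht => ?_⟩
  have h1 := hd' ht
  rw [dist_eq_norm] at h1 ⊢
  simp only [apply_mul] at h1
  have h2 : D.wave t x - D.wave t₀ x =
      (D.wave t (D.apply f x) - D.wave t₀ (D.apply f x)) -
      (D.wave t (D.apply f x - x)) + (D.wave t₀ (D.apply f x - x)) := by
    simp only [map_sub]; abel
  rw [h2]
  calc _ ≤ ‖D.wave t (D.apply f x) - D.wave t₀ (D.apply f x)‖ +
        ‖D.wave t (D.apply f x - x)‖ + ‖D.wave t₀ (D.apply f x - x)‖ :=
        (norm_add_le _ _).trans (add_le_add_left (norm_sub_le _ _) _)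
    _ < ε / 3 + ε / 3 + ε / 3 := by
        rw [norm_wave, norm_wave]
        exact add_lt_add (add_lt_add h1 hfx) hfx
    _ = ε := by ring

theorem continuous_wave (D : LineCalculus H) (y : ℝ → H) (hy : Continuous y) :
    Continuous fun t => D.wave t (y t) := by
  rw [continuous_iff_continuousAt]
  intro t₀
  have h1 : Tendsto (fun t => D.wave t (y t₀)) (𝓝 t₀) (𝓝 (D.wave t₀ (y t₀))) :=
    (continuous_wave_apply D (y t₀)).tendsto t₀
  have h2 : Tendsto (fun t => D.wave t (y t - y t₀)) (𝓝 t₀) (𝓝 0) := by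
    rw [tendsto_zero_iff_norm_tendsto_zero]
    simp only [norm_wave]
    have : Tendsto (fun t => y t - y t₀) (𝓝 t₀) (𝓝 (y t₀ - y t₀)) :=
      (hy.tendsto t₀).sub tendsto_const_nhds
    rw [sub_self] at this
    simpa using this.norm
  have h3 := h1.add h2
  simp only [← map_add, add_sub_cancel, add_zero] at h3
  exact h3

theorem integrable_smul_cont (g : ℝ → ℂ) (hg : Integrable g)
    (y : ℝ → H) (hy : Continuous y) (C : ℝ) (hC : ∀ t, ‖y t‖ ≤ C) :
    Integrable fun t => g t • y t :=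
  Integrable.smul_bdd hg C hy.aestronglyMeasurable (Eventually.of_forall hC)

theorem integrable_smul_wave (D : LineCalculus H) (g : ℝ → ℂ) (hg : Integrable g)
    (y : ℝ → H) (hy : Continuous y) (C : ℝ) (hC : ∀ t, ‖y t‖ ≤ C) :
    Integrable fun t => g t • D.wave t (y t) :=
  integrable_smul_cont g hg _ (continuous_wave D y hy) C
    (fun t => by rw [norm_wave]; exact hC t)

theorem norm_integral_smul_le (g : ℝ → ℂ) (hg : Integrable g)
    (y : ℝ → H) (C : ℝ) (hC : ∀ t, ‖y t‖ ≤ C) :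
    ‖∫ t, g t • y t‖ ≤ (∫ t, ‖g t‖) * C := by
  rw [← integral_mul_const]
  refine (norm_integral_le_integral_norm _).trans ?_
  refine integral_mono_of_nonneg (Eventually.of_forall fun t => norm_nonneg _)
    (hg.norm.mul_const C) (Eventually.of_forall fun t => ?_)
  simp only [norm_smul]
  exact mul_le_mul_of_nonneg_left (hC t) (norm_nonneg _)

/-- `∫ g(t) e^{itD} f(D) x dt = (ĝ f)(D) x` for compactly supported `f`. -/
theorem integral_wave_aux (D : LineCalculus H) (g : ℝ → ℂ) (hg : Integrable g)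
    (G : BoundedContinuousFunction ℝ ℂ)
    (hG : ∀ u : ℝ, G u = ∫ t, g t * Complex.exp (Complex.I * ((t * u : ℝ) : ℂ)))
    (f : BoundedContinuousFunction ℝ ℂ) (hf : HasCompactSupport (f : ℝ → ℂ)) (x : H) :
    ∫ t, g t • D.wave t (D.apply f x) = D.apply G (D.apply f x) := by
  have hint : Integrable fun t => g t • (LineCalculus.character t * f) := by
    refine Integrable.smul_bdd hg ‖f‖ (continuous_character_mul f hf).aestronglyMeasurable
      (Eventually.of_forall fun t => ?_)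
    refine (BoundedContinuousFunction.norm_le (norm_nonneg _)).2 fun u => ?_
    simp only [BoundedContinuousFunction.coe_mul, Pi.mul_apply, norm_mul,
      norm_character_apply, one_mul]
    exact f.norm_coe_le_norm u
  have hGf : ∫ t, g t • (LineCalculus.character t * f) = G * f := by
    ext u
    have h1 := (BoundedContinuousFunction.evalCLM ℂ u (β := ℂ)).integral_comp_comm hint
    have h2 : (∫ t, g t • (LineCalculus.character t * f)) u =
      (BoundedContinuousFunction.evalCLM ℂ u (β := ℂ))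
        (∫ t, g t • (LineCalculus.character t * f)) := rfl
    rw [h2, ← h1, BoundedContinuousFunction.coe_mul, Pi.mul_apply, hG, ← integral_mul_const]
    refine integral_congr_ae (Eventually.of_forall fun t => ?_)
    simp only [map_smul, BoundedContinuousFunction.evalCLM_apply,
      BoundedContinuousFunction.coe_mul, Pi.mul_apply, smul_eq_mul, character_apply]
    ring
  rw [← apply_mul, ← hGf]
  have h1 := (applyL D).integral_comp_comm hint
  have h3 : Integrable fun t => applyL D (g t • (LineCalculus.character t * f)) :=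
    (applyL D).integrable_comp hint
  rw [← applyL_apply D (∫ t, g t • (LineCalculus.character t * f)), ← h1]
  rw [ContinuousLinearMap.integral_apply h3]
  refine integral_congr_ae (Eventually.of_forall fun t => ?_)
  simp only [map_smul, applyL_apply, ContinuousLinearMap.smul_apply, apply_mul]
  rfl

/-- `∫ g(t) e^{itD} x dt = ĝ(D) x` -/
theorem integral_wave (D : LineCalculus H) (g : ℝ → ℂ) (hg : Integrable g)
    (G : BoundedContinuousFunction ℝ ℂ)
    (hG : ∀ u : ℝ, G u = ∫ t, g t * Complex.exp (Complex.I * ((t * u : ℝ) : ℂ))) (x : H) :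
    ∫ t, g t • D.wave t x = D.apply G x := by
  have key : ∀ ε : ℝ, 0 < ε → ‖(∫ t, g t • D.wave t x) - D.apply G x‖ ≤
      ((∫ t, ‖g t‖) + ‖G‖) * ε := by
    intro ε hε
    obtain ⟨f, hf, hfx⟩ := D.window x ε hε
    have hi1 : Integrable fun t => g t • D.wave t x :=
      integrable_smul_wave D g hg (fun _ => x) continuous_const ‖x‖ (fun _ => le_rfl)
    have hi2 : Integrable fun t => g t • D.wave t (D.apply f x) :=
      integrable_smul_wave D g hg (fun _ => D.apply f x) continuous_const _ (fun _ => le_rfl)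
    have h0 := integral_wave_aux D g hg G hG f hf x
    have h1 : (∫ t, g t • D.wave t x) - D.apply G x =
        (∫ t, g t • D.wave t (x - D.apply f x)) + D.apply G (D.apply f x - x) := by
      rw [map_sub (D.apply G), ← h0]
      simp only [map_sub, smul_sub]
      rw [integral_sub hi1 hi2]
      abel
    rw [h1]
    refine (norm_add_le _ _).trans ?_
    rw [add_mul]
    refine add_le_add ?_ ?_
    · refine norm_integral_smul_le g hg _ ε fun t => ?_
      rw [norm_wave, norm_sub_rev]; exact hfx.le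
    · refine (apply_norm_le' D G _).trans ?_
      exact mul_le_mul_of_nonneg_left hfx.le (norm_nonneg _)
  have hA : 0 ≤ (∫ t, ‖g t‖) + ‖G‖ :=
    add_nonneg (integral_nonneg fun t => norm_nonneg _) (norm_nonneg _)
  have h0 : ‖(∫ t, g t • D.wave t x) - D.apply G x‖ ≤ 0 := by
    refine le_of_forall_pos_le_add fun ε hε => ?_
    rw [zero_add]
    refine (key (ε / ((∫ t, ‖g t‖) + ‖G‖ + 1)) (by positivity)).trans ?_
    rw [mul_div_assoc', div_le_iff₀ (by positivity)]
    nlinarith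
  exact sub_eq_zero.1 (norm_le_zero_iff.1 h0)

/-- Strong convergence of any cut-off that is `1` on the support of a window: if `f(D) x = 0`
for all compactly supported `f`, then `x = 0`. -/
theorem eq_zero_of_compact (D : LineCalculus H) (x : H)
    (h : ∀ f : BoundedContinuousFunction ℝ ℂ, HasCompactSupport (f : ℝ → ℂ) →
      D.apply f x = 0) : x = 0 := by
  by_contra hx
  obtain ⟨f, hf, hfx⟩ := D.window x ‖x‖ (norm_pos_iff.2 hx)
  rw [h f hf, zero_sub, norm_neg] at hfx
  exact lt_irrefl _ hfx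

end Crest.Agent.R084
end

-- ▼ part R084/Vac
section

/-! R084: the vacuum vector is fixed by `e^{itD}`, and the adjoint bound. -/

set_option autoImplicit false
set_option linter.unusedSectionVars false

namespace Crest.Agent.R084

open Filter MeasureTheory Crest.OpAlg
open scoped Topology InnerProductSpace

variable {H : Type*} [NormedAddCommGroup H] [InnerProductSpace ℂ H] [CompleteSpace H]

/-- An antilinear isometry flips inner products. -/
theorem inner_antilinear (J : H ≃ₗᵢ⋆[ℂ] H) (x y : H) : ⟪J x, J y⟫_ℂ = ⟪y, x⟫_ℂ := by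
  rw [inner_eq_sum_norm_sq_div_four, inner_eq_sum_norm_sq_div_four]
  have h1 : ‖J x + J y‖ = ‖y + x‖ := by rw [← map_add, J.norm_map, add_comm]
  have h2 : ‖J x - J y‖ = ‖y - x‖ := by rw [← map_sub, J.norm_map, norm_sub_rev]
  have h3 : ‖J x - (RCLike.I : ℂ) • J y‖ = ‖y - (RCLike.I : ℂ) • x‖ := by
    have : J x - (RCLike.I : ℂ) • J y = J (x + (RCLike.I : ℂ) • y) := by
      rw [map_add, LinearIsometryEquiv.map_smulₛₗ]; simp [sub_eq_add_neg]
    rw [this, J.norm_map]
    have h : y - (RCLike.I : ℂ) • x = (-(RCLike.I : ℂ)) • (x + (RCLike.I : ℂ) • y) := by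
      simp only [smul_add, smul_smul]; simp; abel
    rw [h, norm_smul]; simp
  have h4 : ‖J x + (RCLike.I : ℂ) • J y‖ = ‖y + (RCLike.I : ℂ) • x‖ := by
    have : J x + (RCLike.I : ℂ) • J y = J (x - (RCLike.I : ℂ) • y) := by
      rw [map_sub, LinearIsometryEquiv.map_smulₛₗ]; simp [sub_eq_add_neg]
    rw [this, J.norm_map]
    have h : y + (RCLike.I : ℂ) • x = ((RCLike.I : ℂ)) • (x - (RCLike.I : ℂ) • y) := by
      simp only [smul_sub, smul_smul]; simp; abel
    rw [h, norm_smul]; simp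
  rw [h1, h2, h3, h4]

/-- multiplication of a compactly supported bounded continuous function by a continuous one -/
theorem exists_mul_compact (φ : ℝ → ℂ) (hφ : Continuous φ) (f : BoundedContinuousFunction ℝ ℂ)
    (hf : HasCompactSupport (f : ℝ → ℂ)) :
    ∃ F : BoundedContinuousFunction ℝ ℂ, (∀ u, F u = φ u * f u) ∧
      HasCompactSupport (F : ℝ → ℂ) := by
  have hc : Continuous fun u => φ u * f u := hφ.mul f.continuous
  have hs : HasCompactSupport fun u => φ u * f u := hf.mul_left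
  obtain ⟨C, hC⟩ := hs.exists_bound_of_continuous hc
  exact ⟨BoundedContinuousFunction.ofNormedAddCommGroup _ hc C hC, fun u => rfl, hs⟩

theorem continuous_expHalf : Continuous fun u : ℝ => ((Real.exp (u / 2) : ℝ) : ℂ) := by
  fun_prop

/-- every algebra element gives a pair in the Tomita graph. -/
theorem halfExp_of_mem (S : ModularDatum H) (a : H →L[ℂ] H) (ha : a ∈ S.M) :
    S.D.HalfExp (a S.vac) (S.J (star a S.vac)) := by
  have h : ((a S.vac, star a S.vac) : H × H) ∈
      closure (Set.range fun a : S.M => ((a : H →L[ℂ] H) S.vac, star (a : H →L[ℂ] H) S.vac)) :=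
    subset_closure ⟨⟨a, ha⟩, rfl⟩
  rw [S.tomita] at h
  exact h

theorem inner_of_halfExp (S : ModularDatum H) (x z : H) (h : S.D.HalfExp x z) :
    ⟪z, S.J S.vac⟫_ℂ = ⟪x, S.vac⟫_ℂ := by
  have h1 : ((x, S.J z) : H × H) ∈
      closure (Set.range fun a : S.M => ((a : H →L[ℂ] H) S.vac, star (a : H →L[ℂ] H) S.vac)) := by
    rw [S.tomita]
    change S.D.HalfExp x (S.J (S.J z))
    rw [S.J_J]; exact h
  have h2 : closure (Set.range fun a : S.M =>
      ((a : H →L[ℂ] H) S.vac, star (a : H →L[ℂ] H) S.vac)) ⊆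
      {p : H × H | ⟪S.vac, p.2⟫_ℂ = ⟪p.1, S.vac⟫_ℂ} := by
    refine closure_minimal ?_ (isClosed_eq (by fun_prop) (by fun_prop))
    rintro _ ⟨a, rfl⟩
    change ⟪S.vac, star (a : H →L[ℂ] H) S.vac⟫_ℂ = ⟪(a : H →L[ℂ] H) S.vac, S.vac⟫_ℂ
    rw [ContinuousLinearMap.star_eq_adjoint, ContinuousLinearMap.adjoint_inner_right]
  have h3 : ⟪S.vac, S.J z⟫_ℂ = ⟪x, S.vac⟫_ℂ := h2 h1
  rw [← h3]
  have h4 := inner_antilinear S.J (S.J S.vac) z
  rw [S.J_J] at h4
  rw [h4]

theorem inner_apply_star (D : LineCalculus H) (f : BoundedContinuousFunction ℝ ℂ) (x y : H) :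
    ⟪D.apply (star f) x, y⟫_ℂ = ⟪x, D.apply f y⟫_ℂ := by
  rw [map_star, ContinuousLinearMap.star_eq_adjoint, ContinuousLinearMap.adjoint_inner_left]

/-- `(e^{u/2} f)(D) Jξ = f(D) ξ` for compactly supported `f`. -/
theorem apply_expHalf_J_vac (S : ModularDatum H) (f F : BoundedContinuousFunction ℝ ℂ)
    (hF : ∀ u, F u = ((Real.exp (u / 2) : ℝ) : ℂ) * f u) :
    S.D.apply F (S.J S.vac) = S.D.apply f S.vac := by
  refine ext_inner_left ℂ fun w => ?_
  rw [← inner_apply_star, ← inner_apply_star]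
  refine inner_of_halfExp S _ _ ?_
  intro f' g' hfg
  rw [← apply_mul, ← apply_mul]
  congr 2
  ext u
  simp only [BoundedContinuousFunction.coe_mul, Pi.mul_apply,
    BoundedContinuousFunction.star_apply, hF, hfg, star_mul', RCLike.star_def,
    Complex.conj_ofReal]
  ring

/-- `(e^u f)(D) ξ = f(D) ξ` for compactly supported `f`. -/
theorem apply_exp_vac (S : ModularDatum H) (f F : BoundedContinuousFunction ℝ ℂ)
    (hf : HasCompactSupport (f : ℝ → ℂ))
    (hF : ∀ u, F u = ((Real.exp u : ℝ) : ℂ) * f u) :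
    S.D.apply F S.vac = S.D.apply f S.vac := by
  obtain ⟨F1, hF1, hF1c⟩ := exists_mul_compact _ continuous_expHalf f hf
  have h1 := apply_expHalf_J_vac S f F1 hF1
  have h2 := halfExp_of_mem S 1 (one_mem _)
  simp only [star_one, ContinuousLinearMap.one_apply] at h2
  have h3 := h2 F1 F ?_
  · rw [← h3, h1]
  · intro u
    rw [hF, hF1]
    have : ((Real.exp u : ℝ) : ℂ) = ((Real.exp (u / 2) : ℝ) : ℂ) * ((Real.exp (u / 2) : ℝ) : ℂ) := by
      rw [← Complex.ofReal_mul, ← Real.exp_add]; congr 2; ring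
    rw [this]; ring

/-- (V) the vacuum is fixed. -/
theorem wave_vac (S : ModularDatum H) (t : ℝ) : S.D.wave t S.vac = S.vac := by
  rw [← sub_eq_zero]
  refine eq_zero_of_compact S.D _ fun f hf => ?_
  -- the removable singularity quotient
  set A : ℝ → ℂ := dslope (fun u : ℝ => Complex.exp (Complex.I * ((t * u : ℝ) : ℂ))) 0 with hA
  set B : ℝ → ℝ := dslope Real.exp 0 with hB
  have hd1 : Differentiable ℝ (fun u : ℝ => Complex.exp (Complex.I * ((t * u : ℝ) : ℂ))) := by
    fun_prop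
  have hd2 : Differentiable ℝ Real.exp := Real.differentiable_exp
  have hAc : Continuous A := by
    rw [continuous_iff_continuousAt]
    intro u
    by_cases hu : u = 0
    · subst hu; exact continuousAt_dslope_same.2 (hd1 0)
    · exact (continuousAt_dslope_of_ne hu).2 (hd1.continuous.continuousAt)
  have hBc : Continuous B := by
    rw [continuous_iff_continuousAt]
    intro u
    by_cases hu : u = 0
    · subst hu; exact continuousAt_dslope_same.2 (hd2 0)
    · exact (continuousAt_dslope_of_ne hu).2 (hd2.continuous.continuousAt)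
  have hA1 : ∀ u : ℝ, ((u : ℝ) : ℂ) * A u = Complex.exp (Complex.I * ((t * u : ℝ) : ℂ)) - 1 := by
    intro u
    have := sub_smul_dslope (fun u : ℝ => Complex.exp (Complex.I * ((t * u : ℝ) : ℂ))) 0 u
    simp only [sub_zero, mul_zero, Complex.ofReal_zero, Complex.exp_zero] at this
    rw [← this]
    simp [hA]
  have hB1 : ∀ u : ℝ, u * B u = Real.exp u - 1 := by
    intro u
    have := sub_smul_dslope Real.exp 0 u
    simpa using this
  have hB0 : ∀ u : ℝ, B u ≠ 0 := by
    intro u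
    by_cases hu : u = 0
    · subst hu; simp [hB, dslope_same]
    · intro h0
      have := hB1 u
      rw [h0, mul_zero] at this
      have h2 : Real.exp u = 1 := by linarith
      exact hu (Real.exp_eq_one_iff u |>.1 h2)
  obtain ⟨F, hF, hFc⟩ := exists_mul_compact (fun u => A u / (B u : ℂ))
    (hAc.div (Complex.continuous_ofReal.comp hBc) (fun u => by exact_mod_cast hB0 u)) f hf
  obtain ⟨F', hF', -⟩ := exists_mul_compact (fun u => ((Real.exp u : ℝ) : ℂ)) (by fun_prop) F hFc
  have h1 := apply_exp_vac S F F' hFc hF'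
  have h2 : F' - F = f * (LineCalculus.character t - 1) := by
    ext u
    simp only [BoundedContinuousFunction.coe_sub, BoundedContinuousFunction.coe_mul,
      Pi.sub_apply, Pi.mul_apply, BoundedContinuousFunction.coe_one, Pi.one_apply, hF', hF,
      character_apply]
    rw [← hA1 u]
    have h3 : ((Real.exp u : ℝ) : ℂ) = (u : ℂ) * (B u : ℂ) + 1 := by
      have h5 : Real.exp u = u * B u + 1 := by rw [hB1 u]; ring
      rw [h5]; push_cast; ring
    have h4 : (B u : ℂ) ≠ 0 := by exact_mod_cast hB0 u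
    rw [h3]
    field_simp
    ring
  have h3 : S.D.apply (F' - F) S.vac = 0 := by
    rw [map_sub, ContinuousLinearMap.sub_apply, h1, sub_self]
  rw [h2, apply_mul, map_sub, map_one] at h3
  exact h3

/-- (A) adjoint bound. -/
theorem norm_star_vac_le (S : ModularDatum H) (a : H →L[ℂ] H) (ha : a ∈ S.M) (p q : ℝ)
    (hsupp : S.D.SupportedIn (Set.Icc p q) (a S.vac)) :
    ‖star a S.vac‖ ≤ Real.exp (q / 2) * ‖a S.vac‖ := by
  have hh := halfExp_of_mem S a ha
  set y := S.J (star a S.vac) with hy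
  have h1 : ∀ k : BoundedContinuousFunction ℝ ℂ, (∀ u ∈ Set.Icc p q, k u = 0) →
      S.D.apply k y = 0 := by
    intro k hk
    refine eq_zero_of_compact S.D _ fun f hf => ?_
    rw [← apply_mul]
    have hfk : HasCompactSupport (f * k : BoundedContinuousFunction ℝ ℂ) := by
      rw [BoundedContinuousFunction.coe_mul]; exact hf.mul_right
    obtain ⟨F, hF, hFc⟩ := exists_mul_compact _ continuous_expHalf (f * k) hfk
    rw [hh (f * k) F (fun u => by rw [hF u]; ring)]
    refine hsupp F fun u hu => ?_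
    rw [hF u, BoundedContinuousFunction.coe_mul, Pi.mul_apply, hk u hu]
    simp
  let f : BoundedContinuousFunction ℝ ℂ := BoundedContinuousFunction.ofNormedAddCommGroup
    (fun u : ℝ => ((min 1 (Real.exp ((q - u) / 2)) : ℝ) : ℂ)) (by fun_prop) 1 (fun u => by
      rw [Complex.norm_real, Real.norm_eq_abs, abs_of_nonneg (by positivity)]
      exact min_le_left _ _)
  let g : BoundedContinuousFunction ℝ ℂ := BoundedContinuousFunction.ofNormedAddCommGroup
    (fun u : ℝ => ((min (Real.exp (u / 2)) (Real.exp (q / 2)) : ℝ) : ℂ)) (by fun_prop)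
    (Real.exp (q / 2)) (fun u => by
      rw [Complex.norm_real, Real.norm_eq_abs, abs_of_nonneg (by positivity)]
      exact min_le_right _ _)
  have hfg : ∀ u, g u = f u * ((Real.exp (u / 2) : ℝ) : ℂ) := by
    intro u
    change ((min (Real.exp (u / 2)) (Real.exp (q / 2)) : ℝ) : ℂ) =
      ((min 1 (Real.exp ((q - u) / 2)) : ℝ) : ℂ) * ((Real.exp (u / 2) : ℝ) : ℂ)
    rw [← Complex.ofReal_mul, min_mul_of_nonneg _ _ (Real.exp_pos _).le, one_mul,
      ← Real.exp_add]
    congr 4; ring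
  have h2 : S.D.apply (1 - f) y = 0 := by
    refine h1 _ fun u hu => ?_
    change (1 : ℂ) - ((min 1 (Real.exp ((q - u) / 2)) : ℝ) : ℂ) = 0
    rw [min_eq_left]
    · simp
    · rw [← Real.exp_zero]
      exact Real.exp_le_exp.2 (by have := hu.2; linarith)
  rw [map_sub, map_one, ContinuousLinearMap.sub_apply, sub_eq_zero,
    ContinuousLinearMap.one_apply] at h2
  have h3 : ‖y‖ ≤ Real.exp (q / 2) * ‖a S.vac‖ := by
    rw [h2, hh f g hfg]
    refine (apply_norm_le' _ _ _).trans ?_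
    refine mul_le_mul_of_nonneg_right ?_ (norm_nonneg _)
    exact BoundedContinuousFunction.norm_ofNormedAddCommGroup_le _ (Real.exp_pos _).le _
  rwa [hy, S.J.norm_map] at h3

end Crest.Agent.R084
end

-- ▼ part R084/Smear
section

/-! R084: smearing of algebra elements along the modular flow, density of `M'ξ`. -/

set_option autoImplicit false
set_option linter.unusedSectionVars false

namespace Crest.Agent.R084

open Filter MeasureTheory Crest.OpAlg
open scoped Topology InnerProductSpace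

variable {H : Type*} [NormedAddCommGroup H] [InnerProductSpace ℂ H] [CompleteSpace H]

theorem mem_iff_commutes (M : VonNeumannAlgebra H) (a : H →L[ℂ] H) :
    a ∈ M ↔ ∀ x' : H →L[ℂ] H, (∀ b ∈ M, b * x' = x' * b) → x' * a = a * x' := by
  conv_lhs => rw [← VonNeumannAlgebra.commutant_commutant M]
  rw [VonNeumannAlgebra.mem_commutant_iff]
  simp only [VonNeumannAlgebra.mem_commutant_iff]

theorem flow_apply (S : ModularDatum H) (t : ℝ) (b : H →L[ℂ] H) (x : H) :
    S.flow t b x = S.D.wave t (b (S.D.wave (-t) x)) := rfl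

theorem flow_mem (S : ModularDatum H) (t : ℝ) (b : H →L[ℂ] H) (hb : b ∈ S.M) :
    S.flow t b ∈ S.M := S.flow_mem t b hb

theorem continuous_flow (S : ModularDatum H) (b : H →L[ℂ] H) (x : H) :
    Continuous fun t => S.flow t b x := by
  simp only [flow_apply]
  refine continuous_wave S.D _ (b.continuous.comp ?_)
  exact (continuous_wave_apply S.D x).comp continuous_neg

theorem norm_flow_le (S : ModularDatum H) (t : ℝ) (b : H →L[ℂ] H) (x : H) :
    ‖S.flow t b x‖ ≤ ‖b‖ * ‖x‖ := by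
  rw [flow_apply, norm_wave]
  refine (b.le_opNorm _).trans ?_
  rw [norm_wave]

theorem flow_vac (S : ModularDatum H) (t : ℝ) (b : H →L[ℂ] H) :
    S.flow t b S.vac = S.D.wave t (b S.vac) := by
  rw [flow_apply, wave_vac]

theorem flow_star (S : ModularDatum H) (t : ℝ) (b : H →L[ℂ] H) :
    star (S.flow t b) = S.flow t (star b) := by
  simp only [ModularDatum.flow, star_mul, star_wave, neg_neg, mul_assoc]

theorem flow_mul (S : ModularDatum H) (t : ℝ) (a b : H →L[ℂ] H) :
    S.flow t (a * b) = S.flow t a * S.flow t b := by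
  have h : S.flow t a * S.flow t b =
      S.D.wave t * a * (S.D.wave (-t) * S.D.wave t) * b * S.D.wave (-t) := by
    simp only [ModularDatum.flow, mul_assoc]
  rw [h, wave_neg_mul]
  simp only [ModularDatum.flow, mul_assoc, one_mul]

/-- (S) smearing. -/
theorem exists_smear (S : ModularDatum H) (g : ℝ → ℂ) (hg : Integrable g)
    (b : H →L[ℂ] H) (hb : b ∈ S.M) :
    ∃ a : H →L[ℂ] H, a ∈ S.M ∧ ‖a‖ ≤ (∫ t, ‖g t‖) * ‖b‖ ∧
      ∀ x, a x = ∫ t, g t • S.flow t b x := by
  have hint : ∀ x, Integrable fun t => g t • S.flow t b x := fun x =>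
    integrable_smul_cont g hg _ (continuous_flow S b x) _ (fun t => norm_flow_le S t b x)
  have hA : 0 ≤ ∫ t, ‖g t‖ := integral_nonneg fun t => norm_nonneg _
  let a : H →L[ℂ] H := LinearMap.mkContinuous
    { toFun := fun x => ∫ t, g t • S.flow t b x
      map_add' := fun x y => by
        simp only [map_add, smul_add]
        exact integral_add (hint x) (hint y)
      map_smul' := fun c x => by
        simp only [map_smul, RingHom.id_apply]
        rw [← integral_smul]
        refine integral_congr_ae (Eventually.of_forall fun t => ?_)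
        exact smul_comm _ _ _ } ((∫ t, ‖g t‖) * ‖b‖)
    (fun x => by
      refine (norm_integral_smul_le g hg _ (‖b‖ * ‖x‖) fun t => norm_flow_le S t b x).trans ?_
      rw [mul_assoc])
  have ha : ∀ x, a x = ∫ t, g t • S.flow t b x := fun x => rfl
  refine ⟨a, ?_, LinearMap.mkContinuous_norm_le _ (mul_nonneg hA (norm_nonneg _)) _, ha⟩
  rw [mem_iff_commutes]
  intro x' hx'
  ext x
  change x' (a x) = a (x' x)
  rw [ha, ha, ← ContinuousLinearMap.integral_comp_comm x' (hint x)]
  refine integral_congr_ae (Eventually.of_forall fun t => ?_)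
  simp only [map_smul]
  have h := congrArg (fun A : H →L[ℂ] H => A x) (hx' (S.flow t b) (flow_mem S t b hb))
  exact congrArg _ h.symm

/-- smearing acts on the vacuum orbit by the functional calculus -/
theorem smear_vac (S : ModularDatum H) (g : ℝ → ℂ) (hg : Integrable g)
    (G : BoundedContinuousFunction ℝ ℂ)
    (hG : ∀ u : ℝ, G u = ∫ t, g t * Complex.exp (Complex.I * ((t * u : ℝ) : ℂ)))
    (a b : H →L[ℂ] H) (ha : ∀ x, a x = ∫ t, g t • S.flow t b x) :
    a S.vac = S.D.apply G (b S.vac) := by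
  rw [ha, ← integral_wave S.D g hg G hG]
  simp only [flow_vac]


end Crest.Agent.R084
end

-- ▼ part R084/Kernel
section

/-! R084: smoothing kernel with scale-invariant `L¹` bound. -/

set_option autoImplicit false

namespace Crest.Agent.R084

open Filter MeasureTheory
open scoped Topology FourierTransform SchwartzMap ContDiff

/-- The bump function used for the kernel. -/
noncomputable def kbump : ContDiffBump (0 : ℝ) := ⟨1, 2, one_pos, one_lt_two⟩

theorem kbump_hcs : HasCompactSupport (Complex.ofRealCLM ∘ (kbump : ℝ → ℝ)) :=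
  kbump.hasCompactSupport.comp_left rfl

theorem kbump_smooth : ContDiff ℝ ∞ (Complex.ofRealCLM ∘ (kbump : ℝ → ℝ)) :=
  Complex.ofRealCLM.contDiff.comp kbump.contDiff

/-- The bump function as a Schwartz function. -/
noncomputable def kschwartz : 𝓢(ℝ, ℂ) := kbump_hcs.toSchwartzMap kbump_smooth

theorem kschwartz_apply (u : ℝ) : kschwartz u = ((kbump u : ℝ) : ℂ) := rfl

/-- The Fourier transform of the bump function. -/
noncomputable def khat : 𝓢(ℝ, ℂ) := 𝓕 kschwartz

theorem kschwartz_eq (u : ℝ) :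
    ((kbump u : ℝ) : ℂ) =
      ∫ v : ℝ, Complex.exp (((2 * Real.pi * (v * u) : ℝ) : ℂ) * Complex.I) * khat v := by
  have h1 : 𝓕⁻ khat = kschwartz := FourierTransform.fourierInv_fourier_eq _
  have h2 : (𝓕⁻ khat) u = kschwartz u := by rw [h1]
  rw [← kschwartz_apply, ← h2, SchwartzMap.fourierInv_coe, Real.fourierInv_eq']
  congr 1
  ext v
  simp only [smul_eq_mul]
  congr 4
  simp [mul_comm]

theorem exists_kernel : ∃ C : ℝ, 0 < C ∧ ∀ (s δ : ℝ), 0 < δ →
    ∃ (g : ℝ → ℂ) (G : BoundedContinuousFunction ℝ ℂ),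
      Integrable g ∧ (∫ t, ‖g t‖) ≤ C ∧
      (∀ u : ℝ, G u = ∫ t, g t * Complex.exp (Complex.I * ((t * u : ℝ) : ℂ))) ∧
      (∀ u, ‖G u‖ ≤ 1) ∧
      (∀ u ∈ Set.Icc (s - δ) (s + δ), G u = 1) ∧
      (∀ u, u ∉ Set.Icc (s - 2 * δ) (s + 2 * δ) → G u = 0) := by
  have hint : Integrable khat := khat.integrable
  refine ⟨(∫ v, ‖khat v‖) + 1, by positivity, fun s δ hδ => ?_⟩
  have hpi : 0 < 2 * Real.pi := by positivity
  set R : ℝ := δ / (2 * Real.pi) with hR
  have hRpos : 0 < R := by positivity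
  set g : ℝ → ℂ := fun t => (R : ℂ) * (Complex.exp (-(Complex.I * ((t * s : ℝ) : ℂ))) *
    khat (R * t)) with hg
  have hG1 : ∀ u, ‖((kbump ((u - s) / δ) : ℝ) : ℂ)‖ ≤ 1 := by
    intro u
    rw [Complex.norm_real, Real.norm_eq_abs, abs_of_nonneg kbump.nonneg]
    exact kbump.le_one
  set G : BoundedContinuousFunction ℝ ℂ := BoundedContinuousFunction.ofNormedAddCommGroup
    (fun u : ℝ => ((kbump ((u - s) / δ) : ℝ) : ℂ))
    (Complex.continuous_ofReal.comp (kbump.continuous.comp (by fun_prop))) 1 hG1 with hG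
  have hGu : ∀ u, G u = ((kbump ((u - s) / δ) : ℝ) : ℂ) := fun u => rfl
  have hgnorm : ∀ t, ‖g t‖ = R * ‖khat (R * t)‖ := by
    intro t
    simp only [hg, norm_mul, Complex.norm_real, Real.norm_eq_abs, abs_of_pos hRpos,
      Complex.norm_exp]
    simp
  refine ⟨g, G, ?_, ?_, ?_, ?_, ?_, ?_⟩
  · have h1 : Integrable (fun t : ℝ => khat (R * t)) := hint.comp_mul_left' hRpos.ne'
    refine Integrable.const_mul ?_ _
    refine (h1.bdd_mul (c := 1) ?_ ?_)
    · exact Continuous.aestronglyMeasurable (by fun_prop)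
    · filter_upwards with t
      rw [Complex.norm_exp]
      simp
  · simp_rw [hgnorm]
    have h1 := Measure.integral_comp_mul_left (fun t => ‖khat t‖) R
    rw [integral_const_mul, h1]
    rw [abs_of_pos (inv_pos.mpr hRpos), smul_eq_mul, ← mul_assoc, mul_inv_cancel₀ hRpos.ne', one_mul]
    linarith
  · intro u
    rw [hGu, kschwartz_eq]
    set F : ℝ → ℂ := fun v => Complex.exp (((2 * Real.pi * (v * ((u - s) / δ)) : ℝ) : ℂ) *
      Complex.I) * khat v with hF
    have h2 : ∀ t, g t * Complex.exp (Complex.I * ((t * u : ℝ) : ℂ)) = (R : ℂ) * F (R * t) := by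
      intro t
      simp only [hg, hF]
      have h3 : Complex.exp (((2 * Real.pi * (R * t * ((u - s) / δ)) : ℝ) : ℂ) * Complex.I) =
          Complex.exp (-(Complex.I * ((t * s : ℝ) : ℂ))) *
            Complex.exp (Complex.I * ((t * u : ℝ) : ℂ)) := by
        rw [← Complex.exp_add]
        congr 1
        have h4 : 2 * Real.pi * (R * t * ((u - s) / δ)) = t * u - t * s := by
          rw [hR]; field_simp
        rw [h4]
        push_cast
        ring
      rw [h3]
      ring
    simp_rw [h2]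
    rw [integral_const_mul, Measure.integral_comp_mul_left F R, abs_of_pos (inv_pos.mpr hRpos)]
    rw [Complex.real_smul, ← mul_assoc]
    push_cast
    rw [mul_inv_cancel₀ (by exact_mod_cast hRpos.ne'), one_mul]
  · exact hG1
  · intro u hu
    rw [hGu, kbump.one_of_mem_closedBall, Complex.ofReal_one]
    rw [Metric.mem_closedBall, dist_zero_right, Real.norm_eq_abs, abs_div, abs_of_pos hδ,
      div_le_iff₀ hδ, abs_le]
    change _ ≤ _ ∧ _ ≤ (1 : ℝ) * δ
    constructor
    · change -((1 : ℝ) * δ) ≤ _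
      linarith [hu.1]
    · linarith [hu.2]
  · intro u hu
    rw [hGu, kbump.zero_of_le_dist, Complex.ofReal_zero]
    rw [dist_zero_right, Real.norm_eq_abs, abs_div, abs_of_pos hδ, le_div_iff₀ hδ]
    change (2 : ℝ) * δ ≤ _
    by_contra hlt
    push Not at hlt
    rw [abs_lt] at hlt
    exact hu ⟨by linarith [hlt.1], by linarith [hlt.2]⟩

end Crest.Agent.R084
end

-- ▼ part R084/Phases
section

/-! R084 (P): random phases. -/

set_option autoImplicit false

namespace Crest.Agent.R084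

open Filter MeasureTheory Crest.OpAlg
open scoped Topology InnerProductSpace ComplexConjugate

/-- Orthogonality of characters, vector-valued. -/
theorem sum_norm_sq_char {H : Type*} [NormedAddCommGroup H] [InnerProductSpace ℂ H]
    {G : Type*} [AddCommGroup G] [Fintype G] {κ : Type*} [Fintype κ]
    (ψ : κ → AddChar G ℂ) (hψ : Function.Injective ψ) (w : κ → H) :
    ∑ g : G, ‖∑ k, ψ k g • w k‖ ^ 2 = (Fintype.card G : ℝ) * ∑ k, ‖w k‖ ^ 2 := by
  classical
  have key : ((∑ g : G, ‖∑ k, ψ k g • w k‖ ^ 2 : ℝ) : ℂ) =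
      (((Fintype.card G : ℝ) * ∑ k, ‖w k‖ ^ 2 : ℝ) : ℂ) := by
    have h1 : ∀ g : G, ((‖∑ k, ψ k g • w k‖ ^ 2 : ℝ) : ℂ) =
        ∑ k, ∑ l, ((ψ l - ψ k) g) * ⟪w k, w l⟫_ℂ := by
      intro g
      have : ((‖∑ k, ψ k g • w k‖ ^ 2 : ℝ) : ℂ) =
          ⟪∑ k, ψ k g • w k, ∑ k, ψ k g • w k⟫_ℂ := by
        rw [inner_self_eq_norm_sq_to_K]; push_cast; rfl
      rw [this, sum_inner]
      refine Finset.sum_congr rfl fun k _ => ?_
      rw [inner_sum]
      refine Finset.sum_congr rfl fun l _ => ?_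
      rw [inner_smul_left, inner_smul_right, AddChar.sub_apply', div_eq_mul_inv,
        AddChar.inv_apply_eq_conj]
      ring
    rw [Complex.ofReal_sum]
    simp_rw [h1]
    rw [Finset.sum_comm]
    have h2 : ∀ k, ∑ g : G, ∑ l, ((ψ l - ψ k) g) * ⟪w k, w l⟫_ℂ =
        (Fintype.card G : ℂ) * ((‖w k‖ ^ 2 : ℝ) : ℂ) := by
      intro k
      rw [Finset.sum_comm]
      have h3 : ∀ l, ∑ g : G, ((ψ l - ψ k) g) * ⟪w k, w l⟫_ℂ =
          if l = k then (Fintype.card G : ℂ) * ((‖w k‖ ^ 2 : ℝ) : ℂ) else 0 := by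
        intro l
        rw [← Finset.sum_mul, AddChar.sum_eq_ite]
        by_cases hlk : l = k
        · subst hlk
          rw [if_pos (sub_self _), if_pos rfl, inner_self_eq_norm_sq_to_K]
          push_cast; rfl
        · have : ψ l - ψ k ≠ 0 := fun h => hlk (hψ (sub_eq_zero.mp h))
          rw [if_neg this, if_neg hlk, zero_mul]
      simp_rw [h3]
      rw [Finset.sum_ite_eq' Finset.univ k]
      simp
    simp_rw [h2]
    rw [← Finset.mul_sum]
    push_cast
    rfl
  exact_mod_cast key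

/-- The coordinate characters of `ι → ZMod 4`. -/
noncomputable def coordChar {ι : Type*} (i : ι) : AddChar (ι → ZMod 4) ℂ :=
  (ZMod.stdAddChar (N := 4)).compAddMonoidHom (Pi.evalAddMonoidHom (fun _ : ι => ZMod 4) i)

theorem coordChar_apply {ι : Type*} (i : ι) (g : ι → ZMod 4) :
    coordChar i g = ZMod.stdAddChar (N := 4) (g i) := rfl

theorem coordChar_injective {ι : Type*} :
    Function.Injective (coordChar : ι → AddChar (ι → ZMod 4) ℂ) := by
  classical
  intro i j h
  have h1 := DFunLike.congr_fun h (Pi.single i 1)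
  rw [coordChar_apply, coordChar_apply, ZMod.injective_stdAddChar.eq_iff,
    Pi.single_eq_same] at h1
  by_contra hij
  rw [Pi.single_eq_of_ne (fun h => hij h.symm)] at h1
  exact absurd h1 (by decide)

/-- The trivial character together with the characters `g ↦ χ(g i - g j)`, `i ≠ j`. -/
noncomputable def pairChar {ι : Type*} :
    Option {p : ι × ι // p.1 ≠ p.2} → AddChar (ι → ZMod 4) ℂ
  | none => 0
  | some p => coordChar p.1.1 - coordChar p.1.2

theorem pairChar_injective {ι : Type*} :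
    Function.Injective (pairChar : _ → AddChar (ι → ZMod 4) ℂ) := by
  classical
  rintro (_ | ⟨⟨i, j⟩, hij⟩) (_ | ⟨⟨k, l⟩, hkl⟩) h
  · rfl
  · exact absurd (coordChar_injective (sub_eq_zero.mp (show _ - _ = 0 from h.symm))) hkl
  · exact absurd (coordChar_injective (sub_eq_zero.mp (show _ - _ = 0 from h))) hij
  · have h' : (coordChar i - coordChar j : AddChar (ι → ZMod 4) ℂ) =
        coordChar k - coordChar l := h
    simp only [ne_eq] at hij hkl
    have hik : i = k := by
      have h1 := DFunLike.congr_fun h' (Pi.single i 1)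
      rw [AddChar.sub_apply', AddChar.sub_apply'] at h1
      simp only [coordChar_apply] at h1
      rw [← AddChar.map_sub_eq_div, ← AddChar.map_sub_eq_div, ZMod.injective_stdAddChar.eq_iff,
        Pi.single_eq_same, Pi.single_eq_of_ne (fun h => hij h.symm)] at h1
      by_contra hik
      rw [Pi.single_eq_of_ne (fun h => hik h.symm)] at h1
      by_cases hil : i = l
      · subst hil
        rw [Pi.single_eq_same] at h1
        exact absurd h1 (by decide)
      · rw [Pi.single_eq_of_ne (fun h => hil h.symm)] at h1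
        exact absurd h1 (by decide)
    subst hik
    have hjl : j = l := coordChar_injective (sub_right_injective h')
    subst hjl
    rfl

variable {H : Type*} [NormedAddCommGroup H] [InnerProductSpace ℂ H] [CompleteSpace H]

/-- (P) random phases (average over `c : ι → {1,i,-1,-i}`). -/
theorem exists_phases {ι : Type*} [Fintype ι] (a : ι → (H →L[ℂ] H)) (T : H →L[ℂ] H) (ξ : H)
    (μ : ℝ) (hμ : 0 ≤ μ) :
    ∃ c : ι → ℂ, (∀ i, ‖c i‖ = 1) ∧
      (∑ i, ‖T (a i ξ)‖ ^ 2) - μ * (‖∑ i, star (a i) (a i ξ)‖ ^ 2 +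
          ∑ i, ∑ j, ‖star (a j) (a i ξ)‖ ^ 2) ≤
        ‖T ((∑ i, c i • a i) ξ)‖ ^ 2 -
          μ * ‖star (∑ i, c i • a i) ((∑ i, c i • a i) ξ)‖ ^ 2 := by
  classical
  set w : Option {p : ι × ι // p.1 ≠ p.2} → H := fun o => match o with
    | none => ∑ i, star (a i) (a i ξ)
    | some p => star (a p.1.2) (a p.1.1 ξ) with hw
  have hT : ∀ g : ι → ZMod 4, T ((∑ i, coordChar i g • a i) ξ) =
      ∑ i, coordChar i g • T (a i ξ) := by
    intro g
    simp [map_sum]
  have hV : ∀ g : ι → ZMod 4,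
      star (∑ i, coordChar i g • a i) ((∑ i, coordChar i g • a i) ξ) =
      ∑ k, pairChar k g • w k := by
    intro g
    have h1 : star (∑ i, coordChar i g • a i) ((∑ i, coordChar i g • a i) ξ) =
        ∑ i, ∑ j, ((coordChar i - coordChar j) g) • star (a j) (a i ξ) := by
      simp only [star_sum, star_smul, sum_apply, map_sum,
        smul_apply, map_smul]
      refine Finset.sum_congr rfl fun i _ => ?_
      rw [Finset.smul_sum]
      refine Finset.sum_congr rfl fun j _ => ?_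
      rw [smul_smul, AddChar.sub_apply', div_eq_mul_inv, AddChar.inv_apply_eq_conj]
      rfl
    rw [h1, Fintype.sum_option, ← Fintype.sum_prod_type']
    rw [← Fintype.sum_subtype_add_sum_subtype (fun p : ι × ι => p.1 ≠ p.2)]
    rw [add_comm]
    congr 1
    simp only [hw, pairChar, AddChar.zero_apply, one_smul]
    symm
    refine Fintype.sum_bijective (fun i : ι => (⟨(i, i), by simp⟩ : {p : ι × ι // ¬ p.1 ≠ p.2}))
      ⟨fun i j h => ?_, fun p => ?_⟩ _ _ fun i => ?_
    · exact congrArg (fun q => q.1.1) h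
    · obtain ⟨⟨i, j⟩, hij⟩ := p
      simp only [ne_eq, not_not] at hij
      subst hij
      exact ⟨i, rfl⟩
    · rw [sub_self]
      simp
  set N : ℝ := (Fintype.card (ι → ZMod 4) : ℝ) with hN
  have hNpos : 0 < N := by rw [hN]; exact_mod_cast Fintype.card_pos
  have hsumT : ∑ g : ι → ZMod 4, ‖T ((∑ i, coordChar i g • a i) ξ)‖ ^ 2 =
      N * ∑ i, ‖T (a i ξ)‖ ^ 2 := by
    simp_rw [hT]
    exact sum_norm_sq_char coordChar coordChar_injective _
  have hsumV : ∑ g : ι → ZMod 4,
      ‖star (∑ i, coordChar i g • a i) ((∑ i, coordChar i g • a i) ξ)‖ ^ 2 ≤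
      N * (‖∑ i, star (a i) (a i ξ)‖ ^ 2 + ∑ i, ∑ j, ‖star (a j) (a i ξ)‖ ^ 2) := by
    simp_rw [hV]
    rw [sum_norm_sq_char pairChar pairChar_injective]
    refine mul_le_mul_of_nonneg_left ?_ hNpos.le
    rw [Fintype.sum_option]
    refine add_le_add le_rfl ?_
    rw [← Fintype.sum_prod_type']
    rw [← Fintype.sum_subtype_add_sum_subtype (fun p : ι × ι => p.1 ≠ p.2)]
    exact le_add_of_nonneg_right (Finset.sum_nonneg fun _ _ => by positivity)
  obtain ⟨g, -, hg⟩ := Finset.exists_le_of_sum_le (s := (Finset.univ : Finset (ι → ZMod 4)))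
    (f := fun _ => (∑ i, ‖T (a i ξ)‖ ^ 2) - μ * (‖∑ i, star (a i) (a i ξ)‖ ^ 2 +
          ∑ i, ∑ j, ‖star (a j) (a i ξ)‖ ^ 2))
    (g := fun g => ‖T ((∑ i, coordChar i g • a i) ξ)‖ ^ 2 -
          μ * ‖star (∑ i, coordChar i g • a i) ((∑ i, coordChar i g • a i) ξ)‖ ^ 2)
    Finset.univ_nonempty (by
      rw [Finset.sum_const, Finset.card_univ, nsmul_eq_mul, Finset.sum_sub_distrib,
        ← Finset.mul_sum, hsumT, ← hN, mul_sub]
      refine sub_le_sub le_rfl ?_
      calc _ ≤ μ * (N * (‖∑ i, star (a i) (a i ξ)‖ ^ 2 +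
            ∑ i, ∑ j, ‖star (a j) (a i ξ)‖ ^ 2)) := mul_le_mul_of_nonneg_left hsumV hμ
        _ = _ := by ring)
  refine ⟨fun i => coordChar i g, fun i => ?_, hg⟩
  exact AddChar.norm_apply _ _

end Crest.Agent.R084
private theorem rz_b5954f279e : type_of% @_root_.Crest.Agent.R084.pairChar.eq_1 := @_root_.Crest.Agent.R084.pairChar.eq_1 -- L79
end

-- ▼ part R084/Trunc
section

/-! R084 (T): truncation `v ↦ v r`, `r = (1 + v⋆v/K)⁻¹`. -/

set_option autoImplicit false

namespace Crest.Agent.R084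

open Filter MeasureTheory Crest.OpAlg
open scoped Topology InnerProductSpace

variable {H : Type*} [NormedAddCommGroup H] [InnerProductSpace ℂ H] [CompleteSpace H]

/-- (T) truncation `v ↦ v r`, `r = (1 + v⋆v/K)⁻¹`. -/
theorem exists_truncation (v : H →L[ℂ] H) (K : ℝ) (hK : 0 < K) :
    ∃ r : H →L[ℂ] H,
      (∀ x' : H →L[ℂ] H, x' * v = v * x' → x' * star v = star v * x' → x' * r = r * x') ∧
      (∀ x, ‖v (r x)‖ ≤ Real.sqrt K * ‖x‖) ∧
      ∀ x, ‖v x - v (r x)‖ ≤ (1 / Real.sqrt K) * ‖star v (v x)‖ := by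
  set k : ℂ := ((K⁻¹ : ℝ) : ℂ) with hk
  set A : H →L[ℂ] H := 1 + k • (star v * v) with hA
  have hKinv : 0 < K⁻¹ := inv_pos.mpr hK
  have hAx : ∀ x, A x = x + k • (star v (v x)) := by
    intro x; simp [hA]
  -- real part of `⟪y, A y⟫`
  have hinner : ∀ y : H, RCLike.re ⟪y, A y⟫_ℂ = ‖y‖ ^ 2 + K⁻¹ * ‖v y‖ ^ 2 := by
    intro y
    rw [hAx, inner_add_right, inner_smul_right]
    have h1 : ⟪y, star v (v y)⟫_ℂ = ((‖v y‖ ^ 2 : ℝ) : ℂ) := by
      rw [ContinuousLinearMap.star_eq_adjoint, ContinuousLinearMap.adjoint_inner_right,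
        inner_self_eq_norm_sq_to_K]
      push_cast; rfl
    rw [h1, hk, map_add, inner_self_eq_norm_sq]
    congr 1
    rw [← Complex.ofReal_mul]
    exact Complex.ofReal_re _
  have hunit : IsUnit A := by
    refine ContinuousLinearMap.isUnit_of_forall_le_norm_inner_map A (c := 1) one_pos ?_
    intro x
    have h1 : RCLike.re ⟪x, A x⟫_ℂ ≤ ‖⟪x, A x⟫_ℂ‖ := RCLike.re_le_norm _
    rw [hinner] at h1
    rw [norm_inner_symm]
    have h2 : 0 ≤ K⁻¹ * ‖v x‖ ^ 2 := by positivity
    simp only [NNReal.coe_one, mul_one]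
    linarith
  obtain ⟨u, hu⟩ := hunit
  set r : H →L[ℂ] H := (↑u⁻¹ : H →L[ℂ] H) with hr
  have hAr : A * r = 1 := by rw [← hu, hr]; exact u.mul_inv
  have hrA : r * A = 1 := by rw [← hu, hr]; exact u.inv_mul
  have hArx : ∀ x, A (r x) = x := fun x => by
    have := congrArg (fun B : H →L[ℂ] H => B x) hAr
    simpa using this
  -- commuting with `A` implies commuting with `r`
  have hcomm : ∀ x' : H →L[ℂ] H, x' * A = A * x' → x' * r = r * x' := by
    intro x' h
    calc x' * r = (r * A) * x' * r := by rw [hrA, one_mul]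
      _ = r * (A * x') * r := by simp only [mul_assoc]
      _ = r * (x' * A) * r := by rw [h]
      _ = r * x' * (A * r) := by simp only [mul_assoc]
      _ = r * x' := by rw [hAr, mul_one]
  have hb : ∀ x, ‖v (r x)‖ ≤ Real.sqrt K * ‖x‖ := by
    intro x
    have h1 := hinner (r x)
    rw [hArx] at h1
    have h2 : RCLike.re ⟪r x, x⟫_ℂ ≤ ‖r x‖ * ‖x‖ := re_inner_le_norm _ _
    have h3 : K⁻¹ * ‖v (r x)‖ ^ 2 ≤ ‖x‖ ^ 2 := by
      nlinarith [sq_nonneg (‖r x‖ - ‖x‖), sq_nonneg (‖r x‖), sq_nonneg ‖x‖]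
    have h4 : ‖v (r x)‖ ^ 2 ≤ K * ‖x‖ ^ 2 := by
      have := mul_le_mul_of_nonneg_left h3 hK.le
      rwa [← mul_assoc, mul_inv_cancel₀ hK.ne', one_mul] at this
    refine le_of_sq_le_sq ?_ (by positivity)
    rw [mul_pow, Real.sq_sqrt hK.le]
    exact h4
  refine ⟨r, ?_, hb, ?_⟩
  · intro x' h1 h2
    apply hcomm
    have h3 : x' * (star v * v) = (star v * v) * x' := by
      rw [← mul_assoc, h2, mul_assoc, h1, mul_assoc]
    rw [hA, mul_add, add_mul, mul_one, one_mul, mul_smul_comm, smul_mul_assoc, h3]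
  · intro x
    have hc : (star v * v) * r = r * (star v * v) := by
      apply hcomm
      rw [hA, mul_add, add_mul, mul_one, one_mul, mul_smul_comm, smul_mul_assoc]
    have h1 : x - r x = k • r (star v (v x)) := by
      have h2 : A (r x) = x := hArx x
      rw [hAx] at h2
      have h3 : star v (v (r x)) = r (star v (v x)) := by
        have := congrArg (fun B : H →L[ℂ] H => B x) hc
        simpa using this
      rw [h3] at h2
      rw [sub_eq_iff_eq_add, add_comm]
      exact h2.symm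
    rw [← map_sub, h1, map_smul, norm_smul]
    have h4 : ‖k‖ = K⁻¹ := by rw [hk]; simp [abs_of_pos hK]
    rw [h4]
    have h5 := hb (star v (v x))
    calc K⁻¹ * ‖v (r (star v (v x)))‖ ≤ K⁻¹ * (Real.sqrt K * ‖star v (v x)‖) :=
          mul_le_mul_of_nonneg_left h5 hKinv.le
      _ = (1 / Real.sqrt K) * ‖star v (v x)‖ := by
          rw [← mul_assoc]
          congr 1
          have : Real.sqrt K ≠ 0 := (Real.sqrt_pos.mpr hK).ne'
          field_simp
          rw [Real.sq_sqrt hK.le]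

end Crest.Agent.R084
end

-- ▼ part R084/Core
section

/-! R084: assembly of the estimates for one fixed vector. -/

set_option autoImplicit false
set_option linter.unusedSectionVars false

namespace Crest.Agent.R084

open Filter MeasureTheory Crest.OpAlg
open scoped Topology InnerProductSpace

variable {H : Type*} [NormedAddCommGroup H] [InnerProductSpace ℂ H] [CompleteSpace H]

theorem supportedIn_apply (D : LineCalculus H) (G : BoundedContinuousFunction ℝ ℂ) (K : Set ℝ)
    (hG : ∀ u, u ∉ K → G u = 0) (x : H) : D.SupportedIn K (D.apply G x) := by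
  intro f hf
  rw [← apply_mul]
  have : f * G = 0 := by
    ext u
    by_cases hu : u ∈ K
    · simp [hf u hu]
    · simp [hG u hu]
  rw [this, map_zero]; rfl

theorem apply_eq_self (D : LineCalculus H) (G : BoundedContinuousFunction ℝ ℂ) (K : Set ℝ)
    (hG : ∀ u ∈ K, G u = 1) (x : H) (hx : D.SupportedIn K x) : D.apply G x = x := by
  have h := hx (G - 1) (fun u hu => by simp [hG u hu])
  rw [map_sub, map_one] at h
  exact sub_eq_zero.1 h

theorem supportedIn_wave (D : LineCalculus H) (K : Set ℝ) (x : H) (hx : D.SupportedIn K x)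
    (t : ℝ) : D.SupportedIn K (D.wave t x) := by
  intro f hf
  rw [LineCalculus.wave, apply_comm, hx f hf, map_zero]

theorem supportedIn_sum (D : LineCalculus H) (K : Set ℝ) {ι : Type*} (s : Finset ι) (c : ι → ℂ)
    (x : ι → H) (hx : ∀ i, D.SupportedIn K (x i)) : D.SupportedIn K (∑ i ∈ s, c i • x i) := by
  intro f hf
  rw [map_sum]
  refine Finset.sum_eq_zero fun i _ => ?_
  rw [map_smul, hx i f hf, smul_zero]

theorem smul_mem_M (M : VonNeumannAlgebra H) (c : ℂ) (a : H →L[ℂ] H) (ha : a ∈ M) :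
    c • a ∈ M := by
  rw [mem_iff_commutes] at ha ⊢
  intro x' hx'
  rw [mul_smul_comm, smul_mul_assoc, ha x' hx']

/-- `Z` almost scalar on the vacuum is almost scalar on vectors approximated from `M'ξ`. -/
theorem almost_scalar (S : ModularDatum H) (Z x' : H →L[ℂ] H) (hZ : Z ∈ S.M)
    (hx' : ∀ b ∈ S.M, b * x' = x' * b) (lam L ε ε' : ℝ) (hlam : 0 ≤ lam) (hL : ‖Z‖ ≤ L)
    (hlamL : lam ≤ L) (y : H) (hy : ‖x' S.vac - y‖ ≤ ε')
    (hZv : ‖Z S.vac - (lam : ℂ) • S.vac‖ ≤ ε) :
    ‖Z y - (lam : ℂ) • y‖ ≤ 2 * L * ε' + ‖x'‖ * ε := by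
  have h1 : Z y - (lam : ℂ) • y = (Z (y - x' S.vac) - (lam : ℂ) • (y - x' S.vac)) +
      x' (Z S.vac - (lam : ℂ) • S.vac) := by
    have h2 : Z (x' S.vac) = x' (Z S.vac) := by
      have := congrArg (fun A : H →L[ℂ] H => A S.vac) (hx' Z hZ)
      exact this
    simp only [map_sub, map_smul, smul_sub, h2]
    abel
  rw [h1]
  refine (norm_add_le _ _).trans (add_le_add ?_ ?_)
  · refine (norm_sub_le _ _).trans ?_
    have h3 : ‖y - x' S.vac‖ ≤ ε' := by rw [norm_sub_rev]; exact hy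
    have h4 : ‖Z (y - x' S.vac)‖ ≤ L * ε' :=
      (Z.le_opNorm _).trans (mul_le_mul hL h3 (norm_nonneg _) ((norm_nonneg _).trans hL))
    have h5 : ‖(lam : ℂ) • (y - x' S.vac)‖ ≤ L * ε' := by
      rw [norm_smul, Complex.norm_real, Real.norm_eq_abs, abs_of_nonneg hlam]
      exact mul_le_mul hlamL h3 (norm_nonneg _) (hlam.trans hlamL)
    linarith
  · exact (x'.le_opNorm _).trans (mul_le_mul_of_nonneg_left hZv (norm_nonneg _))

/-- conjugating a commutant element by the waves stays in the commutant -/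
theorem commutant_flow (S : ModularDatum H) (x' : H →L[ℂ] H)
    (hx' : ∀ b ∈ S.M, b * x' = x' * b) (t : ℝ) :
    ∀ b ∈ S.M, b * S.flow t x' = S.flow t x' * b := by
  intro b hb
  have h1 := hx' _ (flow_mem S (-t) b hb)
  have h2 := congrArg (S.flow t) h1
  rw [flow_mul, flow_mul] at h2
  have h3 : S.flow t (S.flow (-t) b) = b := by
    ext x
    simp only [flow_apply, neg_neg, wave_apply_neg, wave_neg_apply]
  rwa [h3] at h2

theorem norm_flow_le' (S : ModularDatum H) (t : ℝ) (b : H →L[ℂ] H) : ‖S.flow t b‖ ≤ ‖b‖ :=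
  ContinuousLinearMap.opNorm_le_bound _ (norm_nonneg _) (fun x => norm_flow_le S t b x)

/-- The pair sum of the fourth moment is controlled. -/
theorem pair_sum_le (S : ModularDatum H) (a : H →L[ℂ] H) (ha : a ∈ S.M)
    {ι : Type*} [Fintype ι] (w τ : ι → ℝ) (hw : ∀ i, 0 ≤ w i) (hw1 : ∑ i, w i = 1)
    (x' : H →L[ℂ] H) (hx' : ∀ b ∈ S.M, b * x' = x' * b) (ε ε' : ℝ)
    (hε' : ‖x' S.vac - a S.vac‖ ≤ ε')
    (hε : ‖(∑ i, (w i : ℂ) • S.D.wave (τ i) (a (star a S.vac))) -
      ((‖star a S.vac‖ ^ 2 : ℝ) : ℂ) • S.vac‖ ≤ ε) (i : ι) :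
    ∑ j, w j * ‖star (S.flow (τ j) a) (S.flow (τ i) a S.vac)‖ ^ 2 ≤
      ‖a S.vac‖ * (‖star a S.vac‖ ^ 2 * ‖a S.vac‖ + (2 * ‖a‖ ^ 2 * ε' + ‖x'‖ * ε)) := by
  set Z : H →L[ℂ] H := ∑ j, (w j : ℂ) • S.flow (τ j) (a * star a) with hZdef
  set y : H := S.flow (τ i) a S.vac with hy
  have hyn : ‖y‖ = ‖a S.vac‖ := by rw [hy, flow_vac, norm_wave]
  have hvac1 := S.norm_vac
  have haa : ‖a * star a‖ ≤ ‖a‖ ^ 2 := by
    refine (norm_mul_le _ _).trans ?_
    rw [norm_star, sq]
  have hZM : Z ∈ S.M := by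
    refine sum_mem fun j _ => smul_mem_M _ _ _ (flow_mem S _ _ ?_)
    exact mul_mem ha (star_mem ha)
  have hZn : ‖Z‖ ≤ ‖a‖ ^ 2 := by
    rw [hZdef]
    refine (norm_sum_le _ _).trans ?_
    calc ∑ j, ‖(w j : ℂ) • S.flow (τ j) (a * star a)‖ ≤ ∑ j, w j * ‖a‖ ^ 2 := by
          refine Finset.sum_le_sum fun j _ => ?_
          rw [norm_smul, Complex.norm_real, Real.norm_eq_abs, abs_of_nonneg (hw j)]
          exact mul_le_mul_of_nonneg_left ((norm_flow_le' S _ _).trans haa) (hw j)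
      _ = ‖a‖ ^ 2 := by rw [← Finset.sum_mul, hw1, one_mul]
  have hlam : ‖star a S.vac‖ ^ 2 ≤ ‖a‖ ^ 2 := by
    have : ‖star a S.vac‖ ≤ ‖a‖ := by
      refine ((star a).le_opNorm _).trans ?_
      rw [norm_star, hvac1, mul_one]
    exact pow_le_pow_left₀ (norm_nonneg _) this 2
  have hZv : ‖Z S.vac - ((‖star a S.vac‖ ^ 2 : ℝ) : ℂ) • S.vac‖ ≤ ε := by
    refine le_trans (le_of_eq ?_) hε
    congr 2
    rw [hZdef, ContinuousLinearMap.sum_apply]
    refine Finset.sum_congr rfl fun j _ => ?_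
    change (w j : ℂ) • (S.flow (τ j) (a * star a) S.vac) = _
    rw [flow_vac]; rfl
  have hy' : ‖S.flow (τ i) x' S.vac - y‖ ≤ ε' := by
    rw [hy, flow_vac, flow_vac, ← map_sub, norm_wave]
    exact hε'
  have key := almost_scalar S Z (S.flow (τ i) x') hZM (commutant_flow S x' hx' (τ i))
    (‖star a S.vac‖ ^ 2) (‖a‖ ^ 2) ε ε' (by positivity) hZn hlam y hy' hZv
  have hε0 : 0 ≤ ε := (norm_nonneg _).trans hε
  have key2 : ‖Z y‖ ≤ ‖star a S.vac‖ ^ 2 * ‖a S.vac‖ + (2 * ‖a‖ ^ 2 * ε' + ‖x'‖ * ε) := by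
    have h1 : Z y = ((‖star a S.vac‖ ^ 2 : ℝ) : ℂ) • y +
        (Z y - ((‖star a S.vac‖ ^ 2 : ℝ) : ℂ) • y) := by abel
    rw [h1]
    refine (norm_add_le _ _).trans (add_le_add ?_ (key.trans ?_))
    · rw [norm_smul, Complex.norm_real, Real.norm_eq_abs, abs_of_nonneg (by positivity), hyn]
    · exact add_le_add_right (mul_le_mul_of_nonneg_right (norm_flow_le' S _ _) hε0) _
  have hsum : ((∑ j, w j * ‖star (S.flow (τ j) a) y‖ ^ 2 : ℝ) : ℂ) = ⟪y, Z y⟫_ℂ := by
    rw [hZdef, ContinuousLinearMap.sum_apply, inner_sum]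
    push_cast
    refine Finset.sum_congr rfl fun j _ => ?_
    change _ = ⟪y, (w j : ℂ) • (S.flow (τ j) (a * star a) y)⟫_ℂ
    rw [inner_smul_right, flow_mul, ← flow_star]
    change _ = (w j : ℂ) * ⟪y, (S.flow (τ j) a) (star (S.flow (τ j) a) y)⟫_ℂ
    rw [← ContinuousLinearMap.adjoint_inner_left, ← ContinuousLinearMap.star_eq_adjoint,
      inner_self_eq_norm_sq_to_K]
    simp
  have h2 : (∑ j, w j * ‖star (S.flow (τ j) a) y‖ ^ 2) = ‖⟪y, Z y⟫_ℂ‖ := by
    rw [← hsum, Complex.norm_real, Real.norm_eq_abs, abs_of_nonneg]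
    exact Finset.sum_nonneg fun j _ => mul_nonneg (hw j) (by positivity)
  rw [h2]
  refine (norm_inner_le_norm _ _).trans ?_
  rw [hyn]
  exact mul_le_mul_of_nonneg_left key2 (norm_nonneg _)

end Crest.Agent.R084
end

-- ▼ part R084/Core2
section

/-! R084: random phases and truncation applied to the averaged family. -/

set_option autoImplicit false
set_option linter.unusedSectionVars false

namespace Crest.Agent.R084

open Filter MeasureTheory Crest.OpAlg
open scoped Topology InnerProductSpace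

variable {H : Type*} [NormedAddCommGroup H] [InnerProductSpace ℂ H] [CompleteSpace H]

theorem exists_good_v (S : ModularDatum H) (T : H →L[ℂ] H) (K : Set ℝ)
    (a : H →L[ℂ] H) (ha : a ∈ S.M) (hsupp : S.D.SupportedIn K (a S.vac))
    (ha2 : ‖a S.vac‖ ≤ 2) (E : ℝ) (hE : ‖star a S.vac‖ ^ 2 ≤ 4 * E)
    {ι : Type*} [Fintype ι] (w τ : ι → ℝ) (hw : ∀ i, 0 ≤ w i) (hw1 : ∑ i, w i = 1)
    (x' : H →L[ℂ] H) (hx' : ∀ b ∈ S.M, b * x' = x' * b) (c₁ ε ε' μ : ℝ) (hμ : 0 ≤ μ)
    (hε1 : ε ≤ 1) (hεε' : 2 * ‖a‖ ^ 2 * ε' + ‖x'‖ * ε ≤ 1)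
    (hε' : ‖x' S.vac - a S.vac‖ ≤ ε')
    (hc₁ : c₁ ≤ ∑ i, w i * ‖T (S.D.wave (τ i) (a S.vac))‖ ^ 2)
    (hε2 : ‖(∑ i, (w i : ℂ) • S.D.wave (τ i) (star a (a S.vac))) -
      ((‖a S.vac‖ ^ 2 : ℝ) : ℂ) • S.vac‖ ≤ ε)
    (hε3 : ‖(∑ i, (w i : ℂ) • S.D.wave (τ i) (a (star a S.vac))) -
      ((‖star a S.vac‖ ^ 2 : ℝ) : ℂ) • S.vac‖ ≤ ε) :
    ∃ v ∈ S.M, S.D.SupportedIn K (v S.vac) ∧
      c₁ - μ * (25 + (16 * E + 2)) ≤ ‖T (v S.vac)‖ ^ 2 - μ * ‖star v (v S.vac)‖ ^ 2 := by
  set b : ι → (H →L[ℂ] H) := fun i => ((Real.sqrt (w i) : ℝ) : ℂ) • S.flow (τ i) a with hb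
  have hsq : ∀ i, ((Real.sqrt (w i) : ℝ) : ℂ) * ((Real.sqrt (w i) : ℝ) : ℂ) = (w i : ℂ) := by
    intro i
    rw [← Complex.ofReal_mul, Real.mul_self_sqrt (hw i)]
  have hbn : ∀ i (x : H), ‖((Real.sqrt (w i) : ℝ) : ℂ) • x‖ ^ 2 = w i * ‖x‖ ^ 2 := by
    intro i x
    rw [norm_smul, Complex.norm_real, Real.norm_eq_abs, abs_of_nonneg (Real.sqrt_nonneg _),
      mul_pow, Real.sq_sqrt (hw i)]
  have hstar : ∀ i, star (b i) = ((Real.sqrt (w i) : ℝ) : ℂ) • star (S.flow (τ i) a) := by
    intro i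
    simp only [hb, star_smul, RCLike.star_def, Complex.conj_ofReal]
  obtain ⟨c, hc1, hc⟩ := exists_phases b T S.vac μ hμ
  set v : H →L[ℂ] H := ∑ i, c i • b i with hv
  refine ⟨v, ?_, ?_, le_trans ?_ hc⟩
  · exact sum_mem fun i _ => smul_mem_M _ _ _ (smul_mem_M _ _ _ (flow_mem S _ _ ha))
  · have : v S.vac = ∑ i, (c i * ((Real.sqrt (w i) : ℝ) : ℂ)) • S.D.wave (τ i) (a S.vac) := by
      rw [hv, ContinuousLinearMap.sum_apply]
      refine Finset.sum_congr rfl fun i _ => ?_
      change c i • (((Real.sqrt (w i) : ℝ) : ℂ) • S.flow (τ i) a S.vac) = _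
      rw [flow_vac, smul_smul]
    rw [this]
    exact supportedIn_sum _ _ _ _ _ fun i => supportedIn_wave _ _ _ hsupp _
  · have h1 : ∑ i, ‖T (b i S.vac)‖ ^ 2 = ∑ i, w i * ‖T (S.D.wave (τ i) (a S.vac))‖ ^ 2 := by
      refine Finset.sum_congr rfl fun i _ => ?_
      change ‖T (((Real.sqrt (w i) : ℝ) : ℂ) • S.flow (τ i) a S.vac)‖ ^ 2 = _
      rw [map_smul, hbn, flow_vac]
    have h2 : ‖∑ i, star (b i) (b i S.vac)‖ ^ 2 ≤ 25 := by
      have h3 : ∑ i, star (b i) (b i S.vac) =
          ∑ i, (w i : ℂ) • S.D.wave (τ i) (star a (a S.vac)) := by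
        refine Finset.sum_congr rfl fun i _ => ?_
        rw [hstar]
        change ((Real.sqrt (w i) : ℝ) : ℂ) • star (S.flow (τ i) a)
          (((Real.sqrt (w i) : ℝ) : ℂ) • S.flow (τ i) a S.vac) = _
        rw [map_smul, smul_smul, hsq, flow_star]
        have h4 : S.flow (τ i) (star a) (S.flow (τ i) a S.vac) =
            S.flow (τ i) (star a * a) S.vac := by rw [flow_mul]; rfl
        rw [h4, flow_vac]; rfl
      rw [h3]
      have h5 : ‖∑ i, (w i : ℂ) • S.D.wave (τ i) (star a (a S.vac))‖ ≤ 5 := by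
        have h6 : ∑ i, (w i : ℂ) • S.D.wave (τ i) (star a (a S.vac)) =
            ((∑ i, (w i : ℂ) • S.D.wave (τ i) (star a (a S.vac))) -
              ((‖a S.vac‖ ^ 2 : ℝ) : ℂ) • S.vac) + ((‖a S.vac‖ ^ 2 : ℝ) : ℂ) • S.vac := by abel
        rw [h6]
        refine (norm_add_le _ _).trans ?_
        rw [norm_smul, Complex.norm_real, Real.norm_eq_abs, abs_of_nonneg (by positivity),
          S.norm_vac]
        nlinarith [norm_nonneg (a S.vac)]
      calc _ ≤ (5 : ℝ) ^ 2 := pow_le_pow_left₀ (norm_nonneg _) h5 2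
        _ = 25 := by norm_num
    have h7 : ∑ i, ∑ j, ‖star (b j) (b i S.vac)‖ ^ 2 ≤ 16 * E + 2 := by
      have h8 : ∀ i, ∑ j, ‖star (b j) (b i S.vac)‖ ^ 2 =
          w i * ∑ j, w j * ‖star (S.flow (τ j) a) (S.flow (τ i) a S.vac)‖ ^ 2 := by
        intro i
        rw [Finset.mul_sum]
        refine Finset.sum_congr rfl fun j _ => ?_
        rw [hstar]
        change ‖((Real.sqrt (w j) : ℝ) : ℂ) • star (S.flow (τ j) a)
          (((Real.sqrt (w i) : ℝ) : ℂ) • S.flow (τ i) a S.vac)‖ ^ 2 = _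
        rw [map_smul, hbn, hbn]; ring
      have h9 : ∀ i, ∑ j, w j * ‖star (S.flow (τ j) a) (S.flow (τ i) a S.vac)‖ ^ 2 ≤
          16 * E + 2 := by
        intro i
        refine (pair_sum_le S a ha w τ hw hw1 x' hx' ε ε' hε' hε3 i).trans ?_
        have hE0 : 0 ≤ E := by
          have := sq_nonneg ‖star a S.vac‖
          linarith
        have h10 : ‖star a S.vac‖ ^ 2 * ‖a S.vac‖ ≤ 4 * E * 2 :=
          mul_le_mul hE ha2 (norm_nonneg _) (by positivity)
        calc _ ≤ 2 * (4 * E * 2 + 1) := by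
              refine mul_le_mul ha2 (add_le_add h10 hεε') ?_ (by norm_num)
              have := norm_nonneg (a S.vac)
              have h11 : 0 ≤ 2 * ‖a‖ ^ 2 * ε' + ‖x'‖ * ε := by
                have e1 : 0 ≤ ε' := (norm_nonneg _).trans hε'
                have e2 : 0 ≤ ε := (norm_nonneg _).trans hε3
                positivity
              positivity
          _ = 16 * E + 2 := by ring
      calc _ = ∑ i, w i * ∑ j, w j * ‖star (S.flow (τ j) a) (S.flow (τ i) a S.vac)‖ ^ 2 :=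
            Finset.sum_congr rfl fun i _ => h8 i
        _ ≤ ∑ i, w i * (16 * E + 2) :=
            Finset.sum_le_sum fun i _ => mul_le_mul_of_nonneg_left (h9 i) (hw i)
        _ = 16 * E + 2 := by rw [← Finset.sum_mul, hw1, one_mul]
    rw [h1]
    have h12 := mul_le_mul_of_nonneg_left (add_le_add h2 h7) hμ
    linarith

/-- truncation followed by smoothing -/
theorem exists_bounded (S : ModularDatum H) (T : H →L[ℂ] H) (s δ : ℝ)
    (v : H →L[ℂ] H) (hv : v ∈ S.M)
    (hsupp : S.D.SupportedIn (Set.Icc (s - 2 * δ) (s + 2 * δ)) (v S.vac))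
    (K : ℝ) (hK : 0 < K) (CK : ℝ) (g : ℝ → ℂ) (G : BoundedContinuousFunction ℝ ℂ)
    (hg : Integrable g) (hgC : (∫ t, ‖g t‖) ≤ CK)
    (hG : ∀ u : ℝ, G u = ∫ t, g t * Complex.exp (Complex.I * ((t * u : ℝ) : ℂ)))
    (hG1 : ∀ u, ‖G u‖ ≤ 1)
    (hG2 : ∀ u ∈ Set.Icc (s - 2 * δ) (s + 2 * δ), G u = 1)
    (hG3 : ∀ u, u ∉ Set.Icc (s - 4 * δ) (s + 4 * δ) → G u = 0) :
    ∃ z ∈ S.M, ‖z‖ ≤ CK * Real.sqrt K ∧
      S.D.SupportedIn (Set.Icc (s - 4 * δ) (s + 4 * δ)) (z S.vac) ∧
      ‖T (v S.vac)‖ ^ 2 - (2 * ‖T‖ ^ 2 / K) * ‖star v (v S.vac)‖ ^ 2 ≤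
        2 * ‖T (z S.vac)‖ ^ 2 := by
  obtain ⟨r, hr1, hr2, hr3⟩ := exists_truncation v K hK
  have hvr : v * r ∈ S.M := by
    rw [mem_iff_commutes]
    intro x' hx'
    have h1 : x' * v = v * x' := (hx' v hv).symm
    have h2 : x' * star v = star v * x' := (hx' _ (star_mem hv)).symm
    rw [← mul_assoc, h1, mul_assoc, hr1 x' h1 h2, mul_assoc]
  obtain ⟨z, hzM, hzn, hz⟩ := exists_smear S g hg (v * r) hvr
  have hzv : z S.vac = S.D.apply G ((v * r) S.vac) := smear_vac S g hg G hG z (v * r) hz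
  have hvrn : ‖v * r‖ ≤ Real.sqrt K :=
    ContinuousLinearMap.opNorm_le_bound _ (Real.sqrt_nonneg _) hr2
  have hA : 0 ≤ ∫ t, ‖g t‖ := integral_nonneg fun t => norm_nonneg _
  refine ⟨z, hzM, hzn.trans (mul_le_mul hgC hvrn (norm_nonneg _) (hA.trans hgC)), ?_, ?_⟩
  · rw [hzv]; exact supportedIn_apply _ _ _ hG3 _
  · have hv1 : S.D.apply G (v S.vac) = v S.vac := apply_eq_self _ _ _ hG2 _ hsupp
    have hGn : ‖G‖ ≤ 1 := (BoundedContinuousFunction.norm_le zero_le_one).2 hG1
    have h1 : ‖v S.vac - z S.vac‖ ≤ (1 / Real.sqrt K) * ‖star v (v S.vac)‖ := by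
      rw [hzv, ← hv1, ← map_sub, hv1]
      refine (apply_norm_le' _ _ _).trans ?_
      refine le_trans ?_ (hr3 S.vac)
      calc _ ≤ 1 * ‖v S.vac - (v * r) S.vac‖ := mul_le_mul_of_nonneg_right hGn (norm_nonneg _)
        _ = _ := by rw [one_mul]; rfl
    have h2 : ‖T (v S.vac)‖ ≤ ‖T (z S.vac)‖ + ‖T‖ * ((1 / Real.sqrt K) *
        ‖star v (v S.vac)‖) := by
      have h3 : T (v S.vac) = T (z S.vac) + T (v S.vac - z S.vac) := by
        rw [← map_add, add_sub_cancel]
      rw [h3]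
      refine (norm_add_le _ _).trans (add_le_add le_rfl ?_)
      exact (T.le_opNorm _).trans (mul_le_mul_of_nonneg_left h1 (norm_nonneg _))
    have h4 : ‖T (v S.vac)‖ ^ 2 ≤ 2 * ‖T (z S.vac)‖ ^ 2 +
        2 * (‖T‖ * ((1 / Real.sqrt K) * ‖star v (v S.vac)‖)) ^ 2 := by
      have h5 := pow_le_pow_left₀ (norm_nonneg _) h2 2
      nlinarith [sq_nonneg (‖T (z S.vac)‖ - ‖T‖ * ((1 / Real.sqrt K) * ‖star v (v S.vac)‖))]
    have h6 : 2 * (‖T‖ * ((1 / Real.sqrt K) * ‖star v (v S.vac)‖)) ^ 2 =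
        (2 * ‖T‖ ^ 2 / K) * ‖star v (v S.vac)‖ ^ 2 := by
      rw [mul_pow, mul_pow, div_pow, Real.sq_sqrt hK.le]
      ring
    linarith

end Crest.Agent.R084
end

-- ▼ part R084/Conv
section

/-! R084: convex combinations realising ergodic averages. -/

set_option autoImplicit false

namespace Crest.Agent.R084

open Filter MeasureTheory Crest.OpAlg
open scoped Topology InnerProductSpace

/-- A window average of `(f, y₁, y₂)` is approximated by convex combinations. -/
theorem exists_convex_window {E : Type*} [NormedAddCommGroup E] [NormedSpace ℝ E]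
    [CompleteSpace E] (G : ℝ → E) (hG : Continuous G) (k : ℕ) (hk : 0 < k) (ε : ℝ) (hε : 0 < ε) :
    ∃ (ι : Type) (_ : Fintype ι) (w : ι → ℝ) (τ : ι → ℝ), (∀ i, 0 ≤ w i) ∧ ∑ i, w i = 1 ∧
      ‖(∑ i, w i • G (τ i)) - ⨍ t in Set.Icc (-(k : ℝ)) k, G t‖ < ε := by
  have hk' : (0 : ℝ) < k := by exact_mod_cast hk
  have h1 : (⨍ t in Set.Icc (-(k : ℝ)) k, G t) ∈ closure (convexHull ℝ (Set.range G)) := by
    refine (convex_convexHull ℝ _).set_average_mem_closure ?_ ?_ ?_ ?_
    · rw [Real.volume_Icc]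
      simp only [ne_eq, ENNReal.ofReal_eq_zero, not_le]
      linarith
    · rw [Real.volume_Icc]
      exact ENNReal.ofReal_ne_top
    · exact Eventually.of_forall fun t => subset_convexHull ℝ _ ⟨t, rfl⟩
    · exact hG.continuousOn.integrableOn_compact isCompact_Icc
  obtain ⟨z, hz, hzd⟩ := Metric.mem_closure_iff.1 h1 ε hε
  obtain ⟨ι, hι, w, v, hw0, hw1, hv, hz'⟩ := mem_convexHull_iff_exists_fintype.1 hz
  choose τ hτ using hv
  refine ⟨ι, hι, w, τ, hw0, hw1, ?_⟩
  simp only [hτ]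
  rw [hz', ← dist_eq_norm, dist_comm]
  exact hzd

variable {H : Type*} [NormedAddCommGroup H] [InnerProductSpace ℂ H] [CompleteSpace H]

/-- The convex-combination step. -/
theorem exists_convex (D : LineCalculus H) (f : ℝ → ℝ) (hf : Continuous f)
    (hfb : ∃ C, ∀ t, |f t| ≤ C) (x y X Y : H) (c : ℝ) (hc : 0 < c)
    (hfreq : ∃ᶠ k : ℕ in atTop, c ≤ windowMean f k)
    (hx : Tendsto (fun k : ℕ => ⨍ t in Set.Icc (-(k : ℝ)) k, D.wave t x) atTop (𝓝 X))
    (hy : Tendsto (fun k : ℕ => ⨍ t in Set.Icc (-(k : ℝ)) k, D.wave t y) atTop (𝓝 Y))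
    (ε : ℝ) (hε : 0 < ε) :
    ∃ (ι : Type) (_ : Fintype ι) (w : ι → ℝ) (τ : ι → ℝ), (∀ i, 0 ≤ w i) ∧ ∑ i, w i = 1 ∧
      c - ε ≤ ∑ i, w i * f (τ i) ∧
      ‖(∑ i, (w i : ℂ) • D.wave (τ i) x) - X‖ ≤ ε ∧
      ‖(∑ i, (w i : ℂ) • D.wave (τ i) y) - Y‖ ≤ ε := by
  have hε2 : 0 < ε / 2 := by positivity
  have h1 := Metric.tendsto_atTop.1 hx (ε / 2) hε2
  have h2 := Metric.tendsto_atTop.1 hy (ε / 2) hε2
  obtain ⟨N1, hN1⟩ := h1
  obtain ⟨N2, hN2⟩ := h2
  obtain ⟨k, hkc, hkN⟩ := (hfreq.and_eventually (eventually_ge_atTop (max (max N1 N2) 1))).exists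
  have hkN1 : N1 ≤ k := (le_max_left _ _).trans ((le_max_left _ _).trans hkN)
  have hkN2 : N2 ≤ k := (le_max_right _ _).trans ((le_max_left _ _).trans hkN)
  have hk0 : 0 < k := (le_max_right (max N1 N2) 1).trans hkN
  set G : ℝ → ℝ × H × H := fun t => (f t, D.wave t x, D.wave t y) with hGdef
  have hG : Continuous G :=
    hf.prodMk ((continuous_wave_apply D x).prodMk (continuous_wave_apply D y))
  obtain ⟨ι, hι, w, τ, hw0, hw1, hw⟩ := exists_convex_window G hG k hk0 (ε / 2) hε2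
  have hGi : IntegrableOn G (Set.Icc (-(k : ℝ)) k) :=
    hG.continuousOn.integrableOn_compact isCompact_Icc
  have hGi2 : IntegrableOn (fun t => (D.wave t x, D.wave t y)) (Set.Icc (-(k : ℝ)) k) :=
    ((continuous_wave_apply D x).prodMk
      (continuous_wave_apply D y)).continuousOn.integrableOn_compact isCompact_Icc
  have e1 : (⨍ t in Set.Icc (-(k : ℝ)) k, G t).1 = ⨍ t in Set.Icc (-(k : ℝ)) k, f t := by
    rw [setAverage_eq, setAverage_eq, Prod.smul_fst, fst_integral hGi]
  have e2 : (⨍ t in Set.Icc (-(k : ℝ)) k, G t).2.1 =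
      ⨍ t in Set.Icc (-(k : ℝ)) k, D.wave t x := by
    rw [setAverage_eq, setAverage_eq, Prod.smul_snd, Prod.smul_fst, snd_integral hGi,
      fst_integral hGi2]
  have e3 : (⨍ t in Set.Icc (-(k : ℝ)) k, G t).2.2 =
      ⨍ t in Set.Icc (-(k : ℝ)) k, D.wave t y := by
    rw [setAverage_eq, setAverage_eq, Prod.smul_snd, Prod.smul_snd, snd_integral hGi,
      snd_integral hGi2]
  have s1 : (∑ i, w i • G (τ i)).1 = ∑ i, w i * f (τ i) := by
    rw [Prod.fst_sum]; rfl
  have s2 : (∑ i, w i • G (τ i)).2.1 = ∑ i, (w i : ℂ) • D.wave (τ i) x := by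
    rw [Prod.snd_sum, Prod.fst_sum]
    refine Finset.sum_congr rfl fun i _ => ?_
    exact (Complex.coe_smul _ _).symm
  have s3 : (∑ i, w i • G (τ i)).2.2 = ∑ i, (w i : ℂ) • D.wave (τ i) y := by
    rw [Prod.snd_sum, Prod.snd_sum]
    refine Finset.sum_congr rfl fun i _ => ?_
    exact (Complex.coe_smul _ _).symm
  set Z := (∑ i, w i • G (τ i)) - ⨍ t in Set.Icc (-(k : ℝ)) k, G t with hZ
  have z1 : ‖Z.1‖ < ε / 2 := (norm_fst_le Z).trans_lt hw
  have z2 : ‖Z.2.1‖ < ε / 2 := ((norm_fst_le Z.2).trans (norm_snd_le Z)).trans_lt hw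
  have z3 : ‖Z.2.2‖ < ε / 2 := ((norm_snd_le Z.2).trans (norm_snd_le Z)).trans_lt hw
  rw [hZ, Prod.fst_sub, s1, e1] at z1
  rw [hZ, Prod.snd_sub, Prod.fst_sub, s2, e2] at z2
  rw [hZ, Prod.snd_sub, Prod.snd_sub, s3, e3] at z3
  refine ⟨ι, hι, w, τ, hw0, hw1, ?_, ?_, ?_⟩
  · have h3 : c ≤ ⨍ t in Set.Icc (-(k : ℝ)) k, f t := hkc
    rw [Real.norm_eq_abs, abs_lt] at z1
    linarith [z1.1]
  · have h3 := hN1 k hkN1
    rw [dist_eq_norm] at h3
    calc _ = ‖((∑ i, (w i : ℂ) • D.wave (τ i) x) - ⨍ t in Set.Icc (-(k : ℝ)) k, D.wave t x) +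
          ((⨍ t in Set.Icc (-(k : ℝ)) k, D.wave t x) - X)‖ := by congr 1; abel
      _ ≤ ε / 2 + ε / 2 := (norm_add_le _ _).trans (add_le_add z2.le h3.le)
      _ = ε := by ring
  · have h3 := hN2 k hkN2
    rw [dist_eq_norm] at h3
    calc _ = ‖((∑ i, (w i : ℂ) • D.wave (τ i) y) - ⨍ t in Set.Icc (-(k : ℝ)) k, D.wave t y) +
          ((⨍ t in Set.Icc (-(k : ℝ)) k, D.wave t y) - Y)‖ := by congr 1; abel
      _ ≤ ε / 2 + ε / 2 := (norm_add_le _ _).trans (add_le_add z3.le h3.le)
      _ = ε := by ring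

end Crest.Agent.R084
end

-- ▼ part R084/Erg1
section

set_option autoImplicit false

namespace Crest.Agent.R084

open Filter MeasureTheory Crest.OpAlg
open scoped Topology InnerProductSpace

variable {H : Type*} [NormedAddCommGroup H] [InnerProductSpace ℂ H] [CompleteSpace H]

/-- An operator commuting with everything that commutes with `M` lies in `M`. -/
theorem mem_of_commute_commutant (S : ModularDatum H) (b : H →L[ℂ] H)
    (hb : ∀ x' : H →L[ℂ] H, (∀ a ∈ S.M, a * x' = x' * a) → x' * b = b * x') : b ∈ S.M := by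
  rw [← VonNeumannAlgebra.commutant_commutant S.M, VonNeumannAlgebra.mem_commutant_iff]
  intro g hg
  rw [VonNeumannAlgebra.mem_commutant_iff] at hg
  exact hb g hg

/-- The subspace `M' ξ`. -/
noncomputable def commVac (S : ModularDatum H) : Submodule ℂ H :=
  (S.M.commutant.toStarSubalgebra.toSubalgebra.toSubmodule).map
    (ContinuousLinearMap.apply ℂ H S.vac).toLinearMap

theorem mem_commVac (S : ModularDatum H) (x : H) :
    x ∈ commVac S ↔ ∃ x' : H →L[ℂ] H, (∀ a ∈ S.M, a * x' = x' * a) ∧ x' S.vac = x := by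
  constructor
  · rintro ⟨x', hx', rfl⟩
    exact ⟨x', VonNeumannAlgebra.mem_commutant_iff.mp hx', rfl⟩
  · rintro ⟨x', hx', rfl⟩
    exact ⟨x', VonNeumannAlgebra.mem_commutant_iff.mpr hx', rfl⟩

theorem commVac_dense (S : ModularDatum H) : (commVac S).topologicalClosure = ⊤ := by
  set N := (commVac S).topologicalClosure with hN
  have : CompleteSpace N := (commVac S).isClosed_topologicalClosure.completeSpace_coe
  have hP : IsStarProjection N.starProjection := isStarProjection_starProjection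
  have hmem : N.starProjection ∈ S.M := by
    rw [VonNeumannAlgebra.IsStarProjection.mem_iff hP]
    intro y hy
    rw [Submodule.range_starProjection]
    intro x hx
    have hy' : ∀ a ∈ S.M, a * y = y * a := VonNeumannAlgebra.mem_commutant_iff.mp hy
    have h1 : ∀ z ∈ commVac S, y z ∈ commVac S := by
      intro z hz
      obtain ⟨x', hx', rfl⟩ := (mem_commVac S z).mp hz
      refine (mem_commVac S _).mpr ⟨y * x', fun a ha => ?_, rfl⟩
      rw [← mul_assoc, hy' a ha, mul_assoc, hx' a ha, mul_assoc]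
    have h2 : N ≤ N.comap (y : H →ₗ[ℂ] H) := by
      apply Submodule.topologicalClosure_minimal
      · intro z hz
        exact (commVac S).le_topologicalClosure (h1 z hz)
      · exact IsClosed.preimage y.continuous (commVac S).isClosed_topologicalClosure
    exact h2 hx
  have hvac : S.vac ∈ N := by
    apply (commVac S).le_topologicalClosure
    exact (mem_commVac S _).mpr ⟨1, fun a _ => by simp, rfl⟩
  have h3 : (1 : H →L[ℂ] H) - N.starProjection = 0 := by
    apply S.separating _ (sub_mem (one_mem _) hmem)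
    simp [Submodule.starProjection_eq_self_iff.mpr hvac]
  rw [Submodule.eq_top_iff']
  intro x
  rw [← Submodule.starProjection_eq_self_iff]
  have h4 := congrArg (fun (f : H →L[ℂ] H) => f x) h3
  simp only [sub_apply, one_apply_eq_self,
    zero_apply, sub_eq_zero] at h4
  exact h4.symm

/-- (C) the commutant is cyclic. -/
theorem commutant_dense (S : ModularDatum H) (x : H) (ε : ℝ) (hε : 0 < ε) :
    ∃ x' : H →L[ℂ] H, (∀ a ∈ S.M, a * x' = x' * a) ∧ ‖x' S.vac - x‖ < ε := by
  have hx : x ∈ (commVac S).topologicalClosure := by rw [commVac_dense]; trivial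
  rw [← SetLike.mem_coe, Submodule.topologicalClosure_coe, Metric.mem_closure_iff] at hx
  obtain ⟨y, hy, hxy⟩ := hx ε hε
  obtain ⟨x', hx', rfl⟩ := (mem_commVac S y).mp hy
  exact ⟨x', hx', by rwa [← dist_eq_norm, dist_comm]⟩

end Crest.Agent.R084
end

-- ▼ part R084/Erg2
section

/-! R084: window averages of vector valued functions. -/

set_option autoImplicit false

namespace Crest.Agent.R084

open Filter MeasureTheory Crest.OpAlg
open scoped Topology InnerProductSpace

section Wavg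

variable {E F : Type*} [NormedAddCommGroup E] [NormedSpace ℝ E]
  [NormedAddCommGroup F] [NormedSpace ℝ F]

/-- Window average of a vector valued function. -/
noncomputable def wavg (k : ℕ) (f : ℝ → E) : E := ⨍ t in Set.Icc (-(k : ℝ)) (k : ℝ), f t

theorem wavg_eq (k : ℕ) (f : ℝ → E) :
    wavg k f = (2 * (k : ℝ))⁻¹ • ∫ t in Set.Icc (-(k : ℝ)) (k : ℝ), f t := by
  rw [wavg, setAverage_eq, Real.volume_real_Icc_of_le (by linarith [k.cast_nonneg (α := ℝ)])]
  congr 2
  ring

theorem wavg_norm_le (k : ℕ) (f : ℝ → E) (C : ℝ) (hC : 0 ≤ C) (hf : ∀ t, ‖f t‖ ≤ C) :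
    ‖wavg k f‖ ≤ C := by
  rw [wavg_eq, norm_smul, norm_inv, Real.norm_eq_abs, abs_of_nonneg (by positivity)]
  have h1 : ‖∫ t in Set.Icc (-(k : ℝ)) (k : ℝ), f t‖ ≤
      C * volume.real (Set.Icc (-(k : ℝ)) (k : ℝ)) :=
    norm_setIntegral_le_of_norm_le_const measure_Icc_lt_top (fun t _ => hf t)
  rw [Real.volume_real_Icc_of_le (by linarith [k.cast_nonneg (α := ℝ)])] at h1
  rcases Nat.eq_zero_or_pos k with hk | hk
  · subst hk; simpa using hC
  · have hk' : (0 : ℝ) < k := by exact_mod_cast hk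
    rw [inv_mul_le_iff₀ (by positivity)]
    linarith

theorem wavg_const (k : ℕ) (hk : 1 ≤ k) [CompleteSpace E] (x : E) : wavg k (fun _ => x) = x := by
  have hk' : (0 : ℝ) < k := by exact_mod_cast hk
  rw [wavg_eq, setIntegral_const, Real.volume_real_Icc_of_le (by linarith), smul_smul]
  rw [show (2 * (k : ℝ))⁻¹ * ((k : ℝ) - -(k : ℝ)) = 1 by field_simp; ring, one_smul]

theorem intOn (f : ℝ → E) (hf : Continuous f) (k : ℕ) :
    IntegrableOn f (Set.Icc (-(k : ℝ)) (k : ℝ)) := hf.continuousOn.integrableOn_Icc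

theorem wavg_add (k : ℕ) (f g : ℝ → E) (hf : Continuous f) (hg : Continuous g) :
    wavg k (fun t => f t + g t) = wavg k f + wavg k g := by
  rw [wavg_eq, wavg_eq, wavg_eq, integral_add (intOn f hf k) (intOn g hg k), smul_add]


theorem wavg_clm [CompleteSpace E] [CompleteSpace F] (k : ℕ) (L : E →L[ℝ] F) (f : ℝ → E)
    (hf : Continuous f) : wavg k (fun t => L (f t)) = L (wavg k f) := by
  rw [wavg_eq, wavg_eq, L.integral_comp_comm (intOn f hf k), map_smul]

theorem wavg_mono (k : ℕ) (f g : ℝ → ℝ) (hf : Continuous f) (hg : Continuous g)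
    (hfg : ∀ t, f t ≤ g t) : wavg k f ≤ wavg k g := by
  rw [wavg_eq, wavg_eq]
  refine smul_le_smul_of_nonneg_left ?_ (by positivity)
  exact setIntegral_mono (intOn f hf k) (intOn g hg k) hfg

/-- Shifting the argument does not change limits of window averages. -/
theorem wavg_shift (f : ℝ → E) (hf : Continuous f) (C : ℝ) (hC : ∀ t, ‖f t‖ ≤ C) (s : ℝ) :
    Tendsto (fun k : ℕ => wavg k (fun t => f (t + s)) - wavg k f) atTop (𝓝 0) := by
  have hbd : ∀ k : ℕ, ‖wavg k (fun t => f (t + s)) - wavg k f‖ ≤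
      (2 * (k : ℝ))⁻¹ * (2 * C * |s|) := by
    intro k
    have hk : (0 : ℝ) ≤ k := k.cast_nonneg
    rw [wavg_eq, wavg_eq, ← smul_sub, norm_smul, norm_inv, Real.norm_eq_abs,
      abs_of_nonneg (by positivity)]
    refine mul_le_mul_of_nonneg_left ?_ (by positivity)
    rw [integral_Icc_eq_integral_Ioc, integral_Icc_eq_integral_Ioc,
      ← intervalIntegral.integral_of_le (by linarith),
      ← intervalIntegral.integral_of_le (by linarith),
      intervalIntegral.integral_comp_add_right (fun t => f t) s]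
    have hint : ∀ a b : ℝ, IntervalIntegrable f volume a b := fun a b => hf.intervalIntegrable a b
    have h1 : (∫ x in (-(k : ℝ) + s)..(k + s), f x) - ∫ x in (-(k : ℝ))..k, f x =
        (∫ x in (k : ℝ)..(k + s), f x) - ∫ x in (-(k : ℝ))..(-(k : ℝ) + s), f x := by
      rw [← intervalIntegral.integral_add_adjacent_intervals
        (hint (-(k : ℝ)) (-(k : ℝ) + s)) (hint (-(k : ℝ) + s) k),
        ← intervalIntegral.integral_add_adjacent_intervals
        (hint (-(k : ℝ) + s) (k : ℝ)) (hint k (k + s))]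
      abel
    rw [h1]
    refine (norm_sub_le _ _).trans ?_
    have h2 : ‖∫ x in (k : ℝ)..(k + s), f x‖ ≤ C * |(k + s) - k| :=
      intervalIntegral.norm_integral_le_of_norm_le_const (fun x _ => hC x)
    have h3 : ‖∫ x in (-(k : ℝ))..(-(k : ℝ) + s), f x‖ ≤ C * |(-(k : ℝ) + s) - -(k : ℝ)| :=
      intervalIntegral.norm_integral_le_of_norm_le_const (fun x _ => hC x)
    rw [show ((k : ℝ) + s) - k = s by ring] at h2
    rw [show (-(k : ℝ) + s) - -(k : ℝ) = s by ring] at h3
    linarith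
  refine squeeze_zero_norm hbd ?_
  have h1 : Tendsto (fun k : ℕ => (2 * (k : ℝ))⁻¹) atTop (𝓝 0) := by
    apply Tendsto.inv_tendsto_atTop
    exact (tendsto_natCast_atTop_atTop).const_mul_atTop two_pos
  simpa using h1.mul_const (2 * C * |s|)

end Wavg

end Crest.Agent.R084
end

-- ▼ part R084/Erg3
section

/-! R084: mean ergodic theorem for the modular flow of an ergodic state. -/

set_option autoImplicit false

namespace Crest.Agent.R084

open Filter MeasureTheory Crest.OpAlg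
open scoped Topology InnerProductSpace

variable {H : Type*} [NormedAddCommGroup H] [InnerProductSpace ℂ H] [CompleteSpace H]

theorem wavg_clmC (k : ℕ) (L : H →L[ℂ] H) (f : ℝ → H) (hf : Continuous f) :
    wavg k (fun t => L (f t)) = L (wavg k f) :=
  wavg_clm k (L.restrictScalars ℝ) f hf

theorem exists_opAvg (F : ℝ → H →L[ℂ] H) (hF : ∀ z, Continuous fun t => F t z) (C : ℝ)
    (hC0 : 0 ≤ C) (hC : ∀ t z, ‖F t z‖ ≤ C * ‖z‖) :
    ∃ A : ℕ → H →L[ℂ] H, (∀ k z, A k z = wavg k (fun t => F t z)) ∧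
      ∀ k z, ‖A k z‖ ≤ C * ‖z‖ := by
  have hb : ∀ k z, ‖wavg k (fun t => F t z)‖ ≤ C * ‖z‖ := fun k z =>
    wavg_norm_le k _ _ (by positivity) (fun t => hC t z)
  refine ⟨fun k => LinearMap.mkContinuous
    { toFun := fun z => wavg k (fun t => F t z)
      map_add' := fun x y => ?_
      map_smul' := fun c x => ?_ } C (fun z => hb k z), fun k z => rfl, fun k z => hb k z⟩
  · simp only [map_add]
    exact wavg_add k _ _ (hF x) (hF y)
  · simp only [map_smul, RingHom.id_apply]
    exact wavg_clmC k (c • ContinuousLinearMap.id ℂ H) _ (hF x)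

theorem exists_lim_of_dense (A : ℕ → H →L[ℂ] H) (C : ℝ) (hC0 : 0 ≤ C)
    (hC : ∀ k z, ‖A k z‖ ≤ C * ‖z‖)
    (hd : ∀ (x : H) (ε : ℝ), 0 < ε → ∃ z, ‖z - x‖ < ε ∧ ∃ w, Tendsto (fun k => A k z) atTop (𝓝 w)) :
    ∃ B : H →L[ℂ] H, ∀ z, Tendsto (fun k => A k z) atTop (𝓝 (B z)) := by
  have hlim : ∀ x, ∃ y, Tendsto (fun k => A k x) atTop (𝓝 y) := by
    intro x
    apply cauchySeq_tendsto_of_complete
    rw [Metric.cauchySeq_iff']
    intro ε hε
    obtain ⟨z, hz, w, hw⟩ := hd x (ε / (3 * (C + 1))) (by positivity)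
    obtain ⟨N, hN⟩ := Metric.cauchySeq_iff'.mp hw.cauchySeq (ε / 3) (by positivity)
    refine ⟨N, fun n hn => ?_⟩
    have h1 := hN n hn
    rw [dist_eq_norm] at h1 ⊢
    have h2 : ∀ k, ‖A k (z - x)‖ < ε / 3 := by
      intro k
      refine (hC k _).trans_lt ?_
      have h3 : C * ‖z - x‖ ≤ (C + 1) * ‖z - x‖ := by
        apply mul_le_mul_of_nonneg_right _ (norm_nonneg _); linarith
      refine h3.trans_lt ?_
      have h4 : (C + 1) * ‖z - x‖ < (C + 1) * (ε / (3 * (C + 1))) := by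
        apply mul_lt_mul_of_pos_left hz; positivity
      refine h4.trans_le (le_of_eq ?_)
      field_simp
    have h5 : A n x - A N x = (A n z - A N z) - A n (z - x) + A N (z - x) := by
      simp only [map_sub]; abel
    rw [h5]
    calc _ ≤ ‖(A n z - A N z)‖ + ‖A n (z - x)‖ + ‖A N (z - x)‖ :=
          (norm_add_le _ _).trans (add_le_add_left (norm_sub_le _ _) _)
      _ < ε / 3 + ε / 3 + ε / 3 := add_lt_add (add_lt_add h1 (h2 n)) (h2 N)
      _ = ε := by ring
  choose f hf using hlim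
  exact ⟨continuousLinearMapOfTendsto A (tendsto_pi_nhds.mpr hf), fun z => hf z⟩

/-- von Neumann's mean ergodic theorem for the one-parameter group `e^{itD}`. -/
theorem wave_mean (D : LineCalculus H) (x : H) : ∃ y, (∀ t, D.wave t y = y) ∧
    Tendsto (fun k => wavg k (fun t => D.wave t x)) atTop (𝓝 y) := by
  obtain ⟨A, hA, hAn⟩ := exists_opAvg (fun t => D.wave t) (continuous_wave_apply D) 1 zero_le_one
    (fun t z => by rw [norm_wave, one_mul])
  let L : Submodule ℂ H :=
    { carrier := {x | Tendsto (fun k => A k x) atTop (𝓝 0)}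
      add_mem' := fun {a b} ha hb => by
        have h := Tendsto.add (f := fun k => A k a) (g := fun k => A k b) ha hb
        simpa only [Set.mem_ofPred_eq, map_add, add_zero] using h
      zero_mem' := by simp
      smul_mem' := fun c a ha => by
        have h := Tendsto.const_smul (f := fun k => A k a) ha c
        simpa only [Set.mem_ofPred_eq, map_smul, smul_zero] using h }
  have hLmem : ∀ x, x ∈ L ↔ Tendsto (fun k => A k x) atTop (𝓝 0) := fun x => Iff.rfl
  have hLcl : IsClosed (L : Set H) := by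
    rw [← closure_subset_iff_isClosed]
    intro x hx
    rw [Metric.mem_closure_iff] at hx
    rw [SetLike.mem_coe, hLmem, Metric.tendsto_atTop]
    intro ε hε
    obtain ⟨z, hz, hxz⟩ := hx (ε / 2) (by positivity)
    rw [SetLike.mem_coe, hLmem, Metric.tendsto_atTop] at hz
    obtain ⟨N, hN⟩ := hz (ε / 2) (by positivity)
    refine ⟨N, fun n hn => ?_⟩
    have h1 := hN n hn
    rw [dist_zero_right] at h1 ⊢
    have h2 : A n x = A n (x - z) + A n z := by rw [← map_add, sub_add_cancel]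
    rw [h2]
    have h3 := hAn n (x - z)
    rw [one_mul, ← dist_eq_norm] at h3
    exact (norm_add_le _ _).trans_lt (by linarith)
  have : CompleteSpace L := hLcl.completeSpace_coe
  have hU : ∀ (s : ℝ) (y : H), D.wave s y - y ∈ L := by
    intro s y
    rw [hLmem]
    have h1 := wavg_shift (fun t => D.wave t y) (continuous_wave_apply D y) ‖y‖
      (fun t => (norm_wave D t y).le) s
    refine h1.congr fun k => ?_
    rw [map_sub, hA, hA]
    congr 2
    ext t
    rw [wave_add]; rfl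
  set q := x - L.starProjection x with hq
  have hqL : q ∈ Lᗮ := L.sub_starProjection_mem_orthogonal x
  have hqfix : ∀ t, D.wave t q = q := by
    intro t
    have h1 : ∀ y : H, ⟪y, D.wave t q - q⟫_ℂ = 0 := by
      intro y
      have h2 := (Submodule.mem_orthogonal L q).mp hqL _ (hU (-t) y)
      rw [inner_sub_left] at h2
      rw [inner_sub_right, ← h2]
      congr 1
      rw [← inner_wave_wave D t (D.wave (-t) y) q, wave_apply_neg]
    have h3 := h1 (D.wave t q - q)
    rw [inner_self_eq_zero, sub_eq_zero] at h3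
    exact h3
  refine ⟨q, hqfix, ?_⟩
  have h1 : Tendsto (fun k => A k (L.starProjection x)) atTop (𝓝 0) :=
    (hLmem _).mp (Submodule.starProjection_apply_mem L x)
  have h2 : Tendsto (fun k => A k q) atTop (𝓝 q) := by
    refine tendsto_const_nhds.congr' ?_
    filter_upwards [eventually_ge_atTop 1] with k hk
    rw [hA]
    simp_rw [hqfix]
    rw [wavg_const k hk]
  have h3 := h1.add h2
  rw [zero_add] at h3
  refine h3.congr fun k => ?_
  rw [← map_add, hq, add_sub_cancel, hA]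

theorem flow_add (S : ModularDatum H) (b : H →L[ℂ] H) (s t : ℝ) :
    S.flow (s + t) b = S.flow s (S.flow t b) := by
  simp only [ModularDatum.flow, wave_add, neg_add_rev, mul_assoc]

/-- (E) mean ergodic theorem. -/
theorem mean_ergodic (S : ModularDatum H) (herg : S.Ergodic) (b : H →L[ℂ] H) (hb : b ∈ S.M) :
    Tendsto (fun k : ℕ => ⨍ t in Set.Icc (-(k : ℝ)) (k : ℝ), S.D.wave t (b S.vac)) atTop
      (𝓝 (⟪S.vac, b S.vac⟫_ℂ • S.vac)) := by
  change Tendsto (fun k : ℕ => wavg k (fun t => S.D.wave t (b S.vac))) atTop _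
  obtain ⟨y, hyfix, hy⟩ := wave_mean S.D (b S.vac)
  obtain ⟨A, hA, hAn⟩ := exists_opAvg (fun t => S.flow t b) (continuous_flow S b) ‖b‖
    (norm_nonneg _) (fun t z => norm_flow_le S t b z)
  have hcomm : ∀ x' : H →L[ℂ] H, (∀ a ∈ S.M, a * x' = x' * a) → ∀ k z,
      A k (x' z) = x' (A k z) := by
    intro x' hx' k z
    rw [hA, hA, ← wavg_clmC k x' _ (continuous_flow S b z)]
    congr 1
    ext t
    have h1 := hx' _ (S.flow_mem t b hb)
    exact congrArg (fun f : H →L[ℂ] H => f z) h1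
  obtain ⟨B, hB⟩ := exists_lim_of_dense A ‖b‖ (norm_nonneg _) hAn (fun x ε hε => by
    obtain ⟨x', hx', hxx⟩ := commutant_dense S x ε hε
    refine ⟨x' S.vac, hxx, x' y, ?_⟩
    simp_rw [hcomm x' hx', hA, flow_vac]
    exact (x'.continuous.tendsto y).comp hy)
  have hBM : B ∈ S.M := by
    apply mem_of_commute_commutant
    intro x' hx'
    ext z
    have h1 := hB (x' z)
    simp_rw [hcomm x' hx'] at h1
    have h2 : Tendsto (fun k => x' (A k z)) atTop (𝓝 (x' (B z))) :=
      (x'.continuous.tendsto _).comp (hB z)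
    exact tendsto_nhds_unique h2 h1
  have hBflow : ∀ t, S.flow t B = B := by
    intro s
    ext z
    have h1 : Tendsto (fun k => S.D.wave s (A k (S.D.wave (-s) z))) atTop (𝓝 (S.flow s B z)) :=
      ((S.D.wave s).continuous.tendsto _).comp (hB (S.D.wave (-s) z))
    have h2 := wavg_shift (fun t => S.flow t b z) (continuous_flow S b z) (‖b‖ * ‖z‖)
      (fun t => norm_flow_le S t b z) s
    have h3 := h2.add (hB z)
    rw [zero_add] at h3
    refine tendsto_nhds_unique h1 (h3.congr fun k => ?_)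
    rw [hA, hA, sub_add_cancel, ← wavg_clmC k (S.D.wave s) _ (continuous_flow S b _)]
    congr 1
    ext t
    rw [add_comm, flow_add]
    rfl
  obtain ⟨c, hc⟩ := herg B hBM hBflow
  have hyB : y = c • S.vac := by
    have h1 := hB S.vac
    rw [hc] at h1
    refine tendsto_nhds_unique hy (h1.congr fun k => ?_)
    rw [hA]
    simp_rw [flow_vac]
  have hcv : ⟪S.vac, b S.vac⟫_ℂ = c := by
    have h1 : Tendsto (fun k => ⟪S.vac, wavg k (fun t => S.D.wave t (b S.vac))⟫_ℂ) atTop
        (𝓝 ⟪S.vac, y⟫_ℂ) := tendsto_const_nhds.inner hy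
    have h2 : ∀ k ≥ 1, ⟪S.vac, wavg k (fun t => S.D.wave t (b S.vac))⟫_ℂ =
        ⟪S.vac, b S.vac⟫_ℂ := by
      intro k hk
      have h3 := wavg_clm k ((innerSL ℂ S.vac).restrictScalars ℝ)
        (fun t => S.D.wave t (b S.vac)) (continuous_wave_apply _ _)
      have h4 : ⟪S.vac, wavg k (fun t => S.D.wave t (b S.vac))⟫_ℂ =
        wavg k (fun t => ⟪S.vac, S.D.wave t (b S.vac)⟫_ℂ) := h3.symm
      rw [h4]
      have h5 : ∀ t, ⟪S.vac, S.D.wave t (b S.vac)⟫_ℂ = ⟪S.vac, b S.vac⟫_ℂ := by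
        intro t
        have h6 := inner_wave_wave S.D t S.vac (b S.vac)
        rwa [wave_vac] at h6
      simp_rw [h5]
      exact wavg_const k hk _
    have h3 : Tendsto (fun k => ⟪S.vac, wavg k (fun t => S.D.wave t (b S.vac))⟫_ℂ) atTop
        (𝓝 ⟪S.vac, b S.vac⟫_ℂ) := by
      refine tendsto_const_nhds.congr' ?_
      filter_upwards [eventually_ge_atTop 1] with k hk
      exact (h2 k hk).symm
    rw [tendsto_nhds_unique h3 h1, hyB, inner_smul_right, inner_self_eq_norm_sq_to_K, S.norm_vac]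
    simp
  rw [hcv, ← hyB]
  exact hy

end Crest.Agent.R084
end

-- ▼ part R084/Final

/-! R084: final assembly. -/

set_option autoImplicit false
set_option linter.unusedSectionVars false

namespace Crest.Agent.R084

open Filter MeasureTheory Crest.OpAlg
open scoped Topology InnerProductSpace

variable {H : Type*} [NormedAddCommGroup H] [InnerProductSpace ℂ H] [CompleteSpace H]

theorem exists_one (S : ModularDatum H) (herg : S.Ergodic) (CK : ℝ)
    (hker : ∀ (s δ : ℝ), 0 < δ →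
      ∃ (g : ℝ → ℂ) (G : BoundedContinuousFunction ℝ ℂ),
      Integrable g ∧ (∫ t, ‖g t‖) ≤ CK ∧
      (∀ u : ℝ, G u = ∫ t, g t * Complex.exp (Complex.I * ((t * u : ℝ) : ℂ))) ∧
      (∀ u, ‖G u‖ ≤ 1) ∧
      (∀ u ∈ Set.Icc (s - δ) (s + δ), G u = 1) ∧
      (∀ u, u ∉ Set.Icc (s - 2 * δ) (s + 2 * δ) → G u = 0))
    (T : H →L[ℂ] H) (s δ B : ℝ) (hδ : 0 < δ) (hB : s + 2 * δ ≤ B)
    (h : H) (hh : ‖h‖ = 1) (hband : S.D.SupportedIn (Set.Icc (s - δ) (s + δ)) h)
    (c : ℝ) (hc : 0 < c)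
    (hfreq : ∃ᶠ k : ℕ in atTop, c ≤ windowMean (fun t : ℝ => ‖T (S.D.wave t h)‖ ^ 2) k)
    (K : ℝ) (hK : 0 < K)
    (hKc : (2 * ‖T‖ ^ 2 / K) * (25 + (16 * Real.exp B + 2)) ≤ c / 8) :
    ∃ z ∈ S.M, ‖z‖ ≤ CK * Real.sqrt K ∧
      S.D.SupportedIn (Set.Icc (s - 4 * δ) (s + 4 * δ)) (z S.vac) ∧
      c / 32 ≤ ‖T (z S.vac)‖ ^ 2 := by
  obtain ⟨g₁, G₁, hg₁, -, hG₁, hG₁n, hG₁1, hG₁0⟩ := hker s δ hδ
  obtain ⟨g₂, G₂, hg₂, hg₂C, hG₂, hG₂n, hG₂1, hG₂0⟩ := hker s (2 * δ) (by positivity)
  have e4 : 2 * (2 * δ) = 4 * δ := by ring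
  rw [e4] at hG₂0
  -- approximate `h`
  set ε₁ : ℝ := min 1 (Real.sqrt (c / 4) / (‖T‖ + 1)) with hε₁
  have hε₁0 : 0 < ε₁ := by
    refine lt_min one_pos (div_pos (Real.sqrt_pos.2 (by positivity)) (by positivity))
  have hε₁T : ‖T‖ * ε₁ ≤ Real.sqrt (c / 4) := by
    calc ‖T‖ * ε₁ ≤ (‖T‖ + 1) * (Real.sqrt (c / 4) / (‖T‖ + 1)) :=
          mul_le_mul (by linarith) (min_le_right _ _) hε₁0.le (by positivity)
      _ = Real.sqrt (c / 4) := by field_simp
  obtain ⟨b, hb⟩ : ∃ b : S.M, ‖(b : H →L[ℂ] H) S.vac - h‖ < ε₁ := by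
    have := S.cyclic h
    obtain ⟨_, ⟨b, rfl⟩, hb⟩ := Metric.mem_closure_iff.1 this ε₁ hε₁0
    exact ⟨b, by rwa [dist_comm, dist_eq_norm] at hb⟩
  obtain ⟨a, ha, -, haint⟩ := exists_smear S g₁ hg₁ b b.2
  have hav : a S.vac = S.D.apply G₁ ((b : H →L[ℂ] H) S.vac) :=
    smear_vac S g₁ hg₁ G₁ hG₁ a b haint
  have hasupp : S.D.SupportedIn (Set.Icc (s - 2 * δ) (s + 2 * δ)) (a S.vac) := by
    rw [hav]; exact supportedIn_apply _ _ _ hG₁0 _
  have hah : ‖a S.vac - h‖ ≤ ε₁ := by
    have h1 : S.D.apply G₁ h = h := apply_eq_self _ _ _ hG₁1 _ hband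
    have h2 : a S.vac - h = S.D.apply G₁ ((b : H →L[ℂ] H) S.vac - h) := by
      rw [map_sub, h1, hav]
    rw [h2]
    refine (apply_norm_le' _ _ _).trans ?_
    have : ‖G₁‖ ≤ 1 := (BoundedContinuousFunction.norm_le zero_le_one).2 hG₁n
    calc _ ≤ 1 * ‖(b : H →L[ℂ] H) S.vac - h‖ := mul_le_mul_of_nonneg_right this (norm_nonneg _)
      _ ≤ ε₁ := by rw [one_mul]; exact hb.le
  have ha2 : ‖a S.vac‖ ≤ 2 := by
    have h1 : a S.vac = (a S.vac - h) + h := by abel
    rw [h1]
    refine (norm_add_le _ _).trans ?_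
    rw [hh]
    have : ε₁ ≤ 1 := min_le_left _ _
    linarith
  have hE : ‖star a S.vac‖ ^ 2 ≤ 4 * Real.exp B := by
    have h1 := norm_star_vac_le S a ha _ _ hasupp
    have h2 : ‖star a S.vac‖ ≤ Real.exp (B / 2) * 2 := by
      refine h1.trans (mul_le_mul (Real.exp_le_exp.2 (by linarith)) ha2 (norm_nonneg _)
        (Real.exp_pos _).le)
    calc _ ≤ (Real.exp (B / 2) * 2) ^ 2 := pow_le_pow_left₀ (norm_nonneg _) h2 2
      _ = 4 * Real.exp B := by
        rw [mul_pow, ← Real.exp_nat_mul]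
        push_cast
        rw [mul_div_cancel₀ B (two_ne_zero)]
        ring
  -- windows for `a ξ`
  have hcont : ∀ y : H, Continuous fun t : ℝ => ‖T (S.D.wave t y)‖ ^ 2 := fun y =>
    ((T.continuous.comp (continuous_wave_apply S.D y)).norm).pow 2
  have hfreq' : ∃ᶠ k : ℕ in atTop,
      c / 4 ≤ windowMean (fun t : ℝ => ‖T (S.D.wave t (a S.vac))‖ ^ 2) k := by
    refine (hfreq.and_eventually (eventually_ge_atTop 1)).mono ?_
    rintro k ⟨hk, hk1⟩
    have h1 : windowMean (fun t : ℝ => ‖T (S.D.wave t h)‖ ^ 2) k ≤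
        wavg k (fun t : ℝ => 2 * ‖T (S.D.wave t (a S.vac))‖ ^ 2 + c / 2) := by
      refine wavg_mono k _ _ (hcont h) ?_ fun t => ?_
      · exact ((hcont (a S.vac)).const_mul 2 |>.add continuous_const)
      · have h2 : T (S.D.wave t h) = T (S.D.wave t (a S.vac)) +
            T (S.D.wave t (h - a S.vac)) := by
          rw [← map_add, ← map_add, add_sub_cancel]
        have h3 : ‖T (S.D.wave t (h - a S.vac))‖ ≤ Real.sqrt (c / 4) := by
          refine (T.le_opNorm _).trans ?_
          rw [norm_wave, norm_sub_rev]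
          exact (mul_le_mul_of_nonneg_left hah (norm_nonneg _)).trans hε₁T
        have h4 : ‖T (S.D.wave t h)‖ ≤ ‖T (S.D.wave t (a S.vac))‖ + Real.sqrt (c / 4) := by
          rw [h2]; exact (norm_add_le _ _).trans (add_le_add le_rfl h3)
        have h5 := pow_le_pow_left₀ (norm_nonneg _) h4 2
        have h6 : Real.sqrt (c / 4) ^ 2 = c / 4 := Real.sq_sqrt (by positivity)
        nlinarith [sq_nonneg (‖T (S.D.wave t (a S.vac))‖ - Real.sqrt (c / 4))]
    have h2 : wavg k (fun t : ℝ => 2 * ‖T (S.D.wave t (a S.vac))‖ ^ 2 + c / 2) =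
        2 * windowMean (fun t : ℝ => ‖T (S.D.wave t (a S.vac))‖ ^ 2) k + c / 2 := by
      rw [wavg_add k _ _ ((hcont (a S.vac)).const_mul 2) continuous_const,
        wavg_const k hk1]
      congr 1
      rw [wavg, windowMean, average_eq, average_eq, integral_const_mul, smul_eq_mul, smul_eq_mul]
      ring
    rw [h2] at h1
    linarith
  -- mean ergodic theorem
  have hm1 := mean_ergodic S herg (star a * a) (mul_mem (star_mem ha) ha)
  have hm2 := mean_ergodic S herg (a * star a) (mul_mem ha (star_mem ha))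
  have hi1 : ⟪S.vac, (star a * a) S.vac⟫_ℂ = ((‖a S.vac‖ ^ 2 : ℝ) : ℂ) := by
    change ⟪S.vac, star a (a S.vac)⟫_ℂ = _
    rw [ContinuousLinearMap.star_eq_adjoint, ContinuousLinearMap.adjoint_inner_right,
      inner_self_eq_norm_sq_to_K]
    simp
  have hi2 : ⟪S.vac, (a * star a) S.vac⟫_ℂ = ((‖star a S.vac‖ ^ 2 : ℝ) : ℂ) := by
    change ⟪S.vac, a (star a S.vac)⟫_ℂ = _
    rw [← ContinuousLinearMap.adjoint_inner_left, ← ContinuousLinearMap.star_eq_adjoint,
      inner_self_eq_norm_sq_to_K]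
    simp
  rw [hi1] at hm1
  rw [hi2] at hm2
  -- choose approximations
  obtain ⟨x', hx', hx'a⟩ := commutant_dense S (a S.vac) (1 / (4 * (‖a‖ ^ 2 + 1)))
    (by positivity)
  set ε' : ℝ := 1 / (4 * (‖a‖ ^ 2 + 1)) with hε'
  set ε : ℝ := min (min 1 (1 / (2 * (‖x'‖ + 1)))) (c / 16) with hε
  have hε0 : 0 < ε := by
    refine lt_min (lt_min one_pos (by positivity)) (by positivity)
  have hε1 : ε ≤ 1 := (min_le_left _ _).trans (min_le_left _ _)
  have hεc : ε ≤ c / 16 := min_le_right _ _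
  have hεx : ‖x'‖ * ε ≤ 1 / 2 := by
    have h1 : ε ≤ 1 / (2 * (‖x'‖ + 1)) := (min_le_left _ _).trans (min_le_right _ _)
    calc ‖x'‖ * ε ≤ (‖x'‖ + 1) * (1 / (2 * (‖x'‖ + 1))) :=
          mul_le_mul (by linarith) h1 hε0.le (by positivity)
      _ = 1 / 2 := by field_simp
  have hε'a : 2 * ‖a‖ ^ 2 * ε' ≤ 1 / 2 := by
    calc 2 * ‖a‖ ^ 2 * ε' ≤ 2 * (‖a‖ ^ 2 + 1) * ε' := by
          refine mul_le_mul_of_nonneg_right (by linarith) (by positivity)
      _ = 1 / 2 := by rw [hε']; field_simp; norm_num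
  obtain ⟨ι, _, w, τ, hw0, hw1, hwT, hwx, hwy⟩ := exists_convex S.D
    (fun t : ℝ => ‖T (S.D.wave t (a S.vac))‖ ^ 2) (hcont _)
    ⟨(‖T‖ * ‖a S.vac‖) ^ 2, fun t => by
      rw [abs_of_nonneg (by positivity)]
      refine pow_le_pow_left₀ (norm_nonneg _) ?_ 2
      refine (T.le_opNorm _).trans ?_
      rw [norm_wave]⟩ _ _ _ _ (c / 4) (by positivity) hfreq' hm1 hm2 ε hε0
  obtain ⟨v, hvM, hvs, hvT⟩ := exists_good_v S T (Set.Icc (s - 2 * δ) (s + 2 * δ)) a ha hasupp
    ha2 (Real.exp B) hE w τ hw0 hw1 x' hx' (c / 4 - ε) ε ε' (2 * ‖T‖ ^ 2 / K) (by positivity)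
    hε1 (by linarith) hx'a.le hwT hwx hwy
  obtain ⟨z, hzM, hzn, hzs, hzT⟩ := exists_bounded S T s δ v hvM hvs K hK CK g₂ G₂ hg₂ hg₂C hG₂
    hG₂n hG₂1 hG₂0
  refine ⟨z, hzM, hzn, hzs, ?_⟩
  linarith

/-- from a positive ultrafilter mean to positive windows -/
theorem freq_of_ultraMean (ω : Ultrafilter ℕ) (hω : (ω : Filter ℕ) ≤ Filter.atTop)
    (f : ℝ → ℝ) (C : ℝ) (hC : ∀ t, |f t| ≤ C) (c : ℝ) (hc : 0 < c)
    (hm : c ≤ ultraMean ω f) : ∃ᶠ k : ℕ in atTop, c / 2 ≤ windowMean f k := by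
  have hC0 : 0 ≤ C := (abs_nonneg _).trans (hC 0)
  have hbd : ∀ k, windowMean f k ∈ Set.Icc (-C) C := by
    intro k
    have := wavg_norm_le k f C hC0 hC
    rw [Real.norm_eq_abs] at this
    exact abs_le.1 this
  obtain ⟨L, -, hL⟩ := (isCompact_Icc (a := -C) (b := C)).ultrafilter_le_nhds
    (ω.map (windowMean f)) (by
      rw [Filter.le_principal_iff]
      exact Filter.mem_map.2 (Filter.univ_mem' hbd))
  have hL' : Tendsto (windowMean f) (ω : Filter ℕ) (𝓝 L) := hL
  have hlim : ultraMean ω f = L := hL'.limUnder_eq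
  rw [hlim] at hm
  have hev : ∀ᶠ k in (ω : Filter ℕ), c / 2 < windowMean f k :=
    hL'.eventually (lt_mem_nhds (by linarith))
  exact (hev.frequently.filter_mono hω).mono fun k hk => hk.le

theorem bounded_recovery (S : ModularDatum H) (herg : S.Ergodic)
    (ω : Ultrafilter ℕ) (hω : (ω : Filter ℕ) ≤ Filter.atTop)
    (T : H →L[ℂ] H) (s : ℝ) (δ : ℕ → ℝ) (hδ : ∀ n, 0 < δ n)
    (hδ0 : Filter.Tendsto δ Filter.atTop (nhds 0))
    (h : ℕ → H) (hh : ∀ n, ‖h n‖ = 1)
    (hband : ∀ n, S.D.SupportedIn (Set.Icc (s - δ n) (s + δ n)) (h n))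
    (hpos : ∃ c : ℝ, 0 < c ∧ ∃ᶠ n in Filter.atTop,
      c ≤ Crest.OpAlg.ultraMean ω (fun t : ℝ => ‖T (S.D.wave t (h n))‖ ^ 2)) :
    ∃ (n' : ℕ → ℕ) (v : ℕ → (H →L[ℂ] H)) (C η : ℝ), StrictMono n' ∧ 0 < η ∧
      ∀ j : ℕ, v j ∈ S.M ∧ ‖v j‖ ≤ C ∧ η ≤ ‖T (v j S.vac)‖ ∧
        S.D.SupportedIn (Set.Icc (s - 4 * δ (n' j)) (s + 4 * δ (n' j))) (v j S.vac) := by
  obtain ⟨c, hc, hfr⟩ := hpos
  obtain ⟨CK, -, hker⟩ := exists_kernel
  obtain ⟨n', hn', hn'c⟩ := Filter.extraction_of_frequently_atTop hfr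
  obtain ⟨D₀, hD₀⟩ := hδ0.bddAbove_range
  have hδD : ∀ n, δ n ≤ D₀ := fun n => hD₀ ⟨n, rfl⟩
  set B : ℝ := s + 2 * D₀ with hB
  set K : ℝ := 32 * ‖T‖ ^ 2 * (25 + (16 * Real.exp B + 2)) / c + 1 with hK
  have hexp : 0 < Real.exp B := Real.exp_pos _
  have hK0 : 0 < K := by positivity
  have hKc : (2 * ‖T‖ ^ 2 / K) * (25 + (16 * Real.exp B + 2)) ≤ c / 2 / 8 := by
    rw [div_mul_eq_mul_div, div_le_iff₀ hK0, hK]
    have : c / 2 / 8 * (32 * ‖T‖ ^ 2 * (25 + (16 * Real.exp B + 2)) / c + 1) =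
        2 * ‖T‖ ^ 2 * (25 + (16 * Real.exp B + 2)) + c / 16 := by
      field_simp
      ring
    rw [this]
    linarith
  have hmain : ∀ j, ∃ z ∈ S.M, ‖z‖ ≤ CK * Real.sqrt K ∧
      S.D.SupportedIn (Set.Icc (s - 4 * δ (n' j)) (s + 4 * δ (n' j))) (z S.vac) ∧
      c / 2 / 32 ≤ ‖T (z S.vac)‖ ^ 2 := by
    intro j
    refine exists_one S herg CK hker T s (δ (n' j)) B (hδ _) ?_ (h (n' j)) (hh _) (hband _)
      (c / 2) (by positivity) ?_ K hK0 hKc
    · have := hδD (n' j); rw [hB]; linarith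
    · refine freq_of_ultraMean ω hω _ (‖T‖ ^ 2) (fun t => ?_) c hc (hn'c j)
      rw [abs_of_nonneg (by positivity)]
      refine pow_le_pow_left₀ (norm_nonneg _) ?_ 2
      refine (T.le_opNorm _).trans ?_
      rw [norm_wave, hh, mul_one]
  choose z hzM hzn hzs hzT using hmain
  refine ⟨n', z, CK * Real.sqrt K, Real.sqrt (c / 2 / 32), hn', Real.sqrt_pos.2 (by positivity),
    fun j => ⟨hzM j, hzn j, ?_, hzs j⟩⟩
  exact (Real.sqrt_le_iff).2 ⟨norm_nonneg _, hzT j⟩

end Crest.Agent.R084
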